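import Vale.Agent.P355.H147.LR

/-! Runs with buckets of 512 classes, both signs in one pass, cheaper rows of `L Lᵀ`. -/

namespace Vale.Agent.P355.H182.Bk

open Finset Vale.Agent.P355 Vale.Agent.P355.H147
open Vale.Agent.P355.H998.E (RcE)
open Vale.Agent.P355.H129 (force force_eq dg sub sub_spec sumL sumL_eq allB allB_spec rep sum_dg
  dg_sum)

/-! ### Buckets -/

/-- value of a list of accumulators. -/
def comb (M : ℕ) (A : List ℕ) : ℕ :=
  List.rec (motive := fun _ => ℕ) 0 (fun a _ ih => Nat.add a (Nat.shiftLeft ih M)) A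

/-- add `x` to the accumulator `h`. -/
def upd (M : ℕ) (A : List ℕ) : ℕ → ℕ → List ℕ :=
  List.rec (motive := fun _ => ℕ → ℕ → List ℕ)
    (fun h x => List.cons (Nat.shiftLeft x (Nat.mul M h)) List.nil)
    (fun a A' ih h x => Nat.rec (motive := fun _ => List ℕ) (List.cons (Nat.add a x) A')
      (fun h' _ => List.cons a (ih h' x)) h) A

theorem comb_upd (M : ℕ) : ∀ (A : List ℕ) (h x : ℕ),
    comb M (upd M A h x) = comb M A + x <<< (M * h)
  | [], h, x => by
    show (x <<< (M * h)) + 0 <<< M = 0 + x <<< (M * h)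
    simp
  | a :: A, 0, x => by
    show (a + x) + comb M A <<< M = (a + comb M A <<< M) + x <<< (M * 0)
    simp; ring
  | a :: A, h + 1, x => by
    show a + comb M (upd M A h x) <<< M = (a + comb M A <<< M) + x <<< (M * (h + 1))
    rw [comb_upd M A h x]
    simp only [Nat.shiftLeft_eq]
    rw [Nat.mul_succ, pow_add]
    ring

/-- group sum with buckets. -/
def accBf (β rw mβ Ws TT M μ n : ℕ) : ℕ → ℕ → List ℕ → List ℕ :=
  Nat.rec (motive := fun _ => ℕ → ℕ → List ℕ → List ℕ) (fun _ _ A => A)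
    (fun _ ih Z E A => force (Nat.shiftRight E rw) fun E' => force (Nat.shiftRight Z β) fun Z' =>
      force (Nat.land E 65535) fun c =>
      ih Z' E' (upd M A (Nat.shiftRight c 9) (Nat.shiftLeft
        (Nat.mul (Nat.mul μ (Nat.pow 6 (Nat.sub TT (Nat.land (Nat.shiftRight E 16) 7))))
          (Nat.land Z mβ))
        (Nat.add 64 (Nat.mul Ws (Nat.land c 511)))))) n

theorem and511 (c : ℕ) : 512 * (c >>> 9) + (c &&& 511) = c := by
  have h1 : c &&& 511 = c % 2 ^ 9 := Nat.and_two_pow_sub_one_eq_mod c 9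
  rw [h1, Nat.shiftRight_eq_div_pow]
  have h2 := Nat.div_add_mod c (2 ^ 9)
  norm_num at h2 ⊢
  exact h2

theorem comb_accBf {β rw mβ Ws TT M μ : ℕ} (hM : M = Ws * 512) : ∀ (n Z E : ℕ) (A : List ℕ),
    comb M (accBf β rw mβ Ws TT M μ n Z E A) = accGf β rw mβ Ws TT μ n Z E (comb M A)
  | 0, Z, E, A => rfl
  | n + 1, Z, E, A => by
    have e1 : accBf β rw mβ Ws TT M μ (n + 1) Z E A
        = force (Nat.shiftRight E rw) fun E' => force (Nat.shiftRight Z β) fun Z' =>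
          force (Nat.land E 65535) fun c =>
          accBf β rw mβ Ws TT M μ n Z' E' (upd M A (Nat.shiftRight c 9) (Nat.shiftLeft
          (Nat.mul (Nat.mul μ (Nat.pow 6 (Nat.sub TT (Nat.land (Nat.shiftRight E 16) 7))))
            (Nat.land Z mβ)) (Nat.add 64 (Nat.mul Ws (Nat.land c 511))))) := rfl
    have e2 : accGf β rw mβ Ws TT μ (n + 1) Z E (comb M A)
        = accGf β rw mβ Ws TT μ n (Z >>> β) (E >>> rw) (comb M A +
          (μ * 6 ^ (TT - ((E >>> 16) &&& 7)) * (Z &&& mβ)) <<< (64 + Ws * (E &&& 65535))) := rfl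
    rw [e1, e2, force_eq, force_eq, force_eq, comb_accBf hM n]
    congr 1
    rw [comb_upd]
    congr 1
    show ((μ * 6 ^ (TT - ((E >>> 16) &&& 7)) * (Z &&& mβ)) <<<
        (64 + Ws * ((E &&& 65535) &&& 511))) <<< (M * ((E &&& 65535) >>> 9)) = _
    rw [← Nat.shiftLeft_add]
    congr 1
    rw [hM]
    have h := and511 (E &&& 65535)
    calc 64 + Ws * ((E &&& 65535) &&& 511) + Ws * 512 * ((E &&& 65535) >>> 9)
        = 64 + Ws * (512 * ((E &&& 65535) >>> 9) + ((E &&& 65535) &&& 511)) := by ring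
      _ = _ := by rw [h]

/-- group sum, added to the accumulator. -/
def accGb (β rw mβ Ws TT M μ n Z E a : ℕ) : ℕ :=
  Nat.add a (comb M (accBf β rw mβ Ws TT M μ n Z E List.nil))

theorem accGb_eq {β rw mβ Ws TT M μ n Z E a : ℕ} (hM : M = Ws * 512) (hm : mβ = 2 ^ β - 1) :
    accGb β rw mβ Ws TT M μ n Z E a = accGf β rw mβ Ws TT μ n Z E a := by
  show a + comb M (accBf β rw mβ Ws TT M μ n Z E []) = _
  rw [comb_accBf hM, accGf_spec hm, accGf_spec hm n Z E a]
  show a + (0 + _) = _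
  rw [zero_add]

/-- a pair. -/
def prB (β rw mβ Ws TT M n nrw mE w mw C : ℕ) (TS : List (ℕ × List ℕ)) (μ l E : ℕ)
    (Rs : List ℕ) (a : ℕ) : ℕ :=
  force (zXf w mw l C TS Rs) fun Z =>
    force (Nat.land (Nat.shiftRight E (Nat.mul nrw l)) mE) fun E' =>
      force μ fun μ' => Nat.succ (accGb β rw mβ Ws TT M μ' n Z E' a)

theorem prB_eq {β rw mβ Ws TT M n mE w mw C μ l E a : ℕ} {TS : List (ℕ × List ℕ)}
    {Rs : List ℕ} (hM : M = Ws * 512) (hm : mβ = 2 ^ β - 1) (hrw : 19 ≤ rw)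
    (hE : mE = 2 ^ (rw * n) - 1) :
    prB β rw mβ Ws TT M n (rw * n) mE w mw C TS μ l E Rs a
      = Nat.succ (accGf β rw mβ Ws TT μ n (zXf w mw l C TS Rs)
        (Nat.shiftRight E (Nat.mul (rw * n) l)) a) := by
  unfold prB
  rw [force_eq, force_eq, force_eq, accGb_eq hM hm]
  congr 1
  have e : Nat.land (Nat.shiftRight E (Nat.mul (rw * n) l)) mE
      = (Nat.shiftRight E (Nat.mul (rw * n) l)) % 2 ^ (rw * n) := by
    rw [hE]; exact Nat.and_two_pow_sub_one_eq_mod _ _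
  rw [e, accGf_mask hm hrw]

/-- row `k`. -/
def accKb (β rw mβ Ws TT M n nrw mE BP w mw C C' : ℕ) (TS TS' : List (ℕ × List ℕ)) (k E : ℕ)
    (Rs : List ℕ) (acc : ℕ) : ℕ :=
  force (Nat.mod (Nat.shiftRight BP k) 2) fun bk =>
    force (Nat.rec (motive := fun _ => ℕ → ℕ) (fun a => a)
      (fun l ih a => force (prB β rw mβ Ws TT M n nrw mE w mw C TS
        (mmu bk (Nat.mod (Nat.shiftRight BP l) 2)) l E Rs a) ih) k acc)
      fun acc' => prB β rw mβ Ws TT M n nrw mE w mw C' TS' (mmu bk bk) k E Rs acc'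

theorem accKb_eq {β rw mβ Ws TT M n mE BP w mw C C' k E acc : ℕ} {TS TS' : List (ℕ × List ℕ)}
    {Rs : List ℕ} (hM : M = Ws * 512) (hm : mβ = 2 ^ β - 1) (hrw : 19 ≤ rw)
    (hE : mE = 2 ^ (rw * n) - 1) :
    accKb β rw mβ Ws TT M n (rw * n) mE BP w mw C C' TS TS' k E Rs acc
      = accKg β rw mβ Ws TT n (rw * n) BP w mw C C' TS TS' k E Rs acc := by
  unfold accKb accKg
  simp only [force_eq, prB_eq hM hm hrw hE]

/-! ### Rows -/

/-- row `i` of `L Lᵀ + oU`, the sum of the digits taken from the sum of the columns. -/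
def lrowS (mw w o cA REP SC i : ℕ) (Cs : List ℕ) : ℕ :=
  force (Nat.mul w i) fun p =>
    Nat.sub (Nat.add (lrA mw p Cs) (Nat.mul cA REP))
      (Nat.mul o (Nat.add (Nat.mul (Nat.land (Nat.shiftRight SC p) mw) REP) SC))

theorem lrowS_eq {w bl bu o oU nk : ℕ} {b : LB} (h : b.ck w bl bu o oU nk = true) {i : ℕ}
    (hi : i < nk * b.d) :
    lrowS (2 ^ w - 1) w o b.cA b.REP b.SC i b.Cs = lrow (2 ^ w - 1) w o b.cA b.REP b.SC i b.Cs := by
  unfold LB.ck at h
  simp only [Bool.and_eq_true, force_eq, lenL_eq] at h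
  obtain ⟨hR, hS, hC, hA, hK, hU, hb, hbl, ho, hw⟩ := h
  replace hR : b.REP * (2 ^ w - 1) + 1 = 2 ^ (w * (nk * b.d)) := Nat.eq_of_beq_eq_true hR
  replace hS := Nat.eq_of_beq_eq_true hS
  replace hK : b.Cs.length * (o * o) ≤ oU := Nat.le_of_ble_eq_true hK
  replace hU : 2 * oU < 2 ^ bu := by rw [Nat.blt_eq] at hU; exact hU
  replace hb : bu ≤ w := Nat.le_of_ble_eq_true hb
  replace hbl : bl ≤ w := Nat.le_of_ble_eq_true hbl
  replace ho : 2 ^ bl ≤ 2 * o := Nat.le_of_ble_eq_true ho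
  replace hw : 0 < w := by rw [Nat.blt_eq] at hw; exact hw
  have hB : 1 < 2 ^ w := Nat.one_lt_two_pow (by omega)
  have hB0 : 0 < 2 ^ w := by omega
  have hrep : b.REP = rep (2 ^ w) (nk * b.d) := rep_of hB (by rw [hR, pow_mul])
  have hCs : ∀ a < b.Cs.length, b.Cs.getD a 0 < (2 ^ w) ^ (nk * b.d) ∧
      ∀ j, dg (2 ^ w) (b.Cs.getD a 0) j < 2 ^ bl := by
    intro a ha
    have h1 := allB_spec _ _ hC a ha
    have h2 : sub ((2 ^ bl - 1) * rep (2 ^ w) (nk * b.d)) (b.Cs.getD a 0) = true := by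
      rw [← hrep]; exact h1
    exact sub_spec hbl _ _ h2
  have hcol : ∀ a < b.Cs.length, b.Cs.getD a 0
      = ∑ j ∈ range (nk * b.d), dg (2 ^ w) (b.Cs.getD a 0) j * (2 ^ w) ^ j := fun a ha =>
    (sum_dg hB0 (nk * b.d) _ (hCs a ha).1).symm
  have h1 : b.SC = ∑ j ∈ range (nk * b.d),
      (∑ a ∈ range b.Cs.length, dg (2 ^ w) (b.Cs.getD a 0) j) * (2 ^ w) ^ j := by
    rw [← hS, sumL_eq]
    simp only [Finset.sum_mul]
    rw [Finset.sum_comm]
    exact Finset.sum_congr rfl fun a ha => hcol a (mem_range.1 ha)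
  have ho1 : 1 ≤ o := by
    rcases Nat.eq_zero_or_pos o with h0 | h0
    · rw [h0] at ho
      have := pow_pos (show 0 < 2 by norm_num) bl
      omega
    · exact h0
  have hlt : ∀ j, ∑ a ∈ range b.Cs.length, dg (2 ^ w) (b.Cs.getD a 0) j < 2 ^ w := by
    intro j
    calc ∑ a ∈ range b.Cs.length, dg (2 ^ w) (b.Cs.getD a 0) j
        ≤ ∑ _a ∈ range b.Cs.length, 2 * o :=
          Finset.sum_le_sum fun a ha => (((hCs a (mem_range.1 ha)).2 j).trans_le ho).le
      _ = b.Cs.length * (2 * o) := by simp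
      _ = 2 * (b.Cs.length * o) := by ring
      _ ≤ 2 * (b.Cs.length * (o * o)) :=
          Nat.mul_le_mul_left 2 (Nat.mul_le_mul_left _ (Nat.le_mul_self o))
      _ ≤ 2 * oU := by omega
      _ < 2 ^ bu := hU
      _ ≤ 2 ^ w := Nat.pow_le_pow_right (by norm_num) hb
  have h2 : lrS (2 ^ w - 1) (w * i) b.Cs = dg (2 ^ w) b.SC i := by
    rw [lrS_eq, h1, dg_sum hi fun j _ => hlt j]
  have h3 : Nat.land (Nat.shiftRight b.SC (w * i)) (2 ^ w - 1) = dg (2 ^ w) b.SC i :=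
    dg_eq_land _ _
  unfold lrowS lrow
  rw [force_eq, force_eq]
  show Nat.sub (Nat.add (lrA (2 ^ w - 1) (w * i) b.Cs) (Nat.mul b.cA b.REP))
      (Nat.mul o (Nat.add (Nat.mul (Nat.land (Nat.shiftRight b.SC (w * i)) (2 ^ w - 1)) b.REP)
        b.SC))
    = Nat.sub (Nat.add (lrA (2 ^ w - 1) (w * i) b.Cs) (Nat.mul b.cA b.REP))
      (Nat.mul o (Nat.add (Nat.mul (lrS (2 ^ w - 1) (w * i) b.Cs) b.REP) b.SC))
  rw [h2, h3]

/-- all factors are checked. -/
def FOk (w bl bu o oU nk : ℕ) (fs : List LB) : Prop := ∀ b ∈ fs, b.ck w bl bu o oU nk = true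

theorem FOk.nil (w bl bu o oU nk : ℕ) : FOk w bl bu o oU nk [] := by
  intro b hb; exact absurd hb (by simp)

theorem FOk.cons {w bl bu o oU nk : ℕ} {b : LB} {fs : List LB}
    (h : b.ck w bl bu o oU nk = true) (h' : FOk w bl bu o oU nk fs) :
    FOk w bl bu o oU nk (b :: fs) := by
  intro b' hb
  rcases List.mem_cons.1 hb with rfl | hb
  · exact h
  · exact h' b' hb

/-- rows of a representative. -/
def rowsLB (mw w o k : ℕ) (fs : List LB) : List ℕ :=
  List.rec (motive := fun _ => List ℕ) []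
    (fun b _ ih => consR (fun s => lrowS mw w o b.cA b.REP b.SC (Nat.add (Nat.mul k b.d) s) b.Cs)
      b.d ih) fs

theorem rowsLB_eq {w bl bu o oU nk k : ℕ} (hk : k < nk) : ∀ {fs : List LB},
    FOk w bl bu o oU nk fs → rowsLB (2 ^ w - 1) w o k fs = rowsLX (2 ^ w - 1) w o k fs
  | [], _ => rfl
  | b :: fs, h => by
    have e : rowsLB (2 ^ w - 1) w o k (b :: fs)
        = consR (fun s => lrowS (2 ^ w - 1) w o b.cA b.REP b.SC (k * b.d + s) b.Cs) b.d
          (rowsLB (2 ^ w - 1) w o k fs) := rfl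
    have e2 : rowsLX (2 ^ w - 1) w o k (b :: fs)
        = consR (fun s => lrow (2 ^ w - 1) w o b.cA b.REP b.SC (k * b.d + s) b.Cs) b.d
          (rowsLX (2 ^ w - 1) w o k fs) := rfl
    rw [e, e2, consR_eq, consR_eq, rowsLB_eq hk fun b' hb => h b' (List.mem_cons_of_mem _ hb)]
    congr 1
    refine List.map_congr_left fun s hs => ?_
    have hs' := List.mem_range.1 hs
    refine lrowS_eq (h b (List.mem_cons_self ..)) ?_
    calc k * b.d + s < k * b.d + b.d := by omega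
      _ = (k + 1) * b.d := by ring
      _ ≤ nk * b.d := Nat.mul_le_mul_right _ hk

/-! ### Both signs -/

/-- `num` rows starting with `k`, both signs; the results are compared with `X'`, `Y'`. -/
def runB (β rw mβ Ws TT M n nrw mE BP w mw o CP CP' CN CN' : ℕ)
    (TP TP' TN TN' : List (ℕ × List ℕ)) (fs : List LB) (EL : List ℕ) (X' Y' num : ℕ) :
    ℕ → ℕ → ℕ → Bool :=
  Nat.rec (motive := fun _ => ℕ → ℕ → ℕ → Bool) (fun _ x y => and (Nat.beq x X') (Nat.beq y Y'))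
    (fun _ ih k x y => forceL (rowsLB mw w o k fs) fun Rs => force (nthL EL k) fun E =>
      force (accKb β rw mβ Ws TT M n nrw mE BP w mw CP CP' TP TP' k E Rs x) fun x' =>
      force (accKb β rw mβ Ws TT M n nrw mE BP w mw CN CN' TN TN' k E Rs y) fun y' =>
      force (Nat.succ k) fun k' => ih k' x' y') num

/-- the parameters are forced once. -/
def ckB (t : TyE) (TT rw o : ℕ) (fs : List LB) (num a X Y X' Y' : ℕ) : Bool :=
  force (Nat.sub (Nat.pow 2 t.β) 1) fun mβ => force (Nat.sub (Nat.pow 2 t.w) 1) fun mw =>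
  force (Nat.mul rw t.n) fun nrw => force (Nat.sub (Nat.pow 2 nrw) 1) fun mE =>
  force t.β fun β => force t.Ws fun Ws => force (Nat.mul Ws 512) fun M => force t.n fun n =>
  force t.BP fun BP => force t.w fun w =>
  force (cstX t.oU (mkTL (fun b => b.Tn) fs)) fun CP =>
  force (cstX t.oU (mkTL (fun b => b.Sn) fs)) fun CP' =>
  force (cstX t.oU (mkTL (fun b => b.Tp) fs)) fun CN =>
  force (cstX t.oU (mkTL (fun b => b.Sp) fs)) fun CN' =>
  forceT (mkTL (fun b => b.Tp) fs) fun TP =>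
  forceT (mkTL (fun b => b.Sp) fs) fun TP' =>
  forceT (mkTL (fun b => b.Tn) fs) fun TN =>
  forceT (mkTL (fun b => b.Sn) fs) fun TN' =>
  force X fun x => force Y fun y => force X' fun x' => force Y' fun y' =>
  runB β rw mβ Ws TT M n nrw mE BP w mw o CP CP' CN CN' TP TP' TN TN' fs t.EL x' y' num a x y

theorem runB_eq {β rw Ws TT n BP w o CP CP' CN CN' : ℕ} {TP TP' TN TN' : List (ℕ × List ℕ)}
    {fs : List LB} {EL : List ℕ} {bl bu oU nk X' Y' : ℕ} (hrw : 19 ≤ rw)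
    (hf : FOk w bl bu o oU nk fs) : ∀ (num a X Y : ℕ), a + num ≤ nk →
    runB β rw (2 ^ β - 1) Ws TT (Ws * 512) n (rw * n) (2 ^ (rw * n) - 1) BP w (2 ^ w - 1) o
      CP CP' CN CN' TP TP' TN TN' fs EL X' Y' num a X Y
    = and (Nat.beq (H147.runL β rw (2 ^ β - 1) Ws TT n (rw * n) BP w (2 ^ w - 1) o CP CP' TP TP'
        fs EL num a X) X')
      (Nat.beq (H147.runL β rw (2 ^ β - 1) Ws TT n (rw * n) BP w (2 ^ w - 1) o CN CN' TN TN'
        fs EL num a Y) Y')
  | 0, a, X, Y, _ => rfl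
  | num + 1, a, X, Y, h => by
    have e1 : runB β rw (2 ^ β - 1) Ws TT (Ws * 512) n (rw * n) (2 ^ (rw * n) - 1) BP w (2 ^ w - 1)
        o CP CP' CN CN' TP TP' TN TN' fs EL X' Y' (num + 1) a X Y
        = forceL (rowsLB (2 ^ w - 1) w o a fs) fun Rs => force (nthL EL a) fun E =>
          force (accKb β rw (2 ^ β - 1) Ws TT (Ws * 512) n (rw * n) (2 ^ (rw * n) - 1) BP w
            (2 ^ w - 1) CP CP' TP TP' a E Rs X) fun x' =>
          force (accKb β rw (2 ^ β - 1) Ws TT (Ws * 512) n (rw * n) (2 ^ (rw * n) - 1) BP w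
            (2 ^ w - 1) CN CN' TN TN' a E Rs Y) fun y' =>
          force (a + 1) fun k' =>
          runB β rw (2 ^ β - 1) Ws TT (Ws * 512) n (rw * n) (2 ^ (rw * n) - 1) BP w (2 ^ w - 1)
            o CP CP' CN CN' TP TP' TN TN' fs EL X' Y' num k' x' y' := rfl
    have e2 : ∀ (C C' : ℕ) (TS TS' : List (ℕ × List ℕ)) (Z : ℕ),
        H147.runL β rw (2 ^ β - 1) Ws TT n (rw * n) BP w (2 ^ w - 1) o C C' TS TS' fs EL (num + 1)
          a Z
        = force (rowL β rw (2 ^ β - 1) Ws TT n (rw * n) BP w (2 ^ w - 1) o C C' TS TS' fs EL a Z)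
          fun x => force (a + 1) fun k' =>
          H147.runL β rw (2 ^ β - 1) Ws TT n (rw * n) BP w (2 ^ w - 1) o C C' TS TS' fs EL num
            k' x := fun _ _ _ _ _ => rfl
    have e3 : ∀ (C C' : ℕ) (TS TS' : List (ℕ × List ℕ)) (Z : ℕ),
        rowL β rw (2 ^ β - 1) Ws TT n (rw * n) BP w (2 ^ w - 1) o C C' TS TS' fs EL a Z
        = accKb β rw (2 ^ β - 1) Ws TT (Ws * 512) n (rw * n) (2 ^ (rw * n) - 1) BP w
            (2 ^ w - 1) C C' TS TS' a (nthL EL a) (rowsLB (2 ^ w - 1) w o a fs) Z := by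
      intro C C' TS TS' Z
      unfold rowL
      rw [forceL_eq, force_eq, accKb_eq rfl rfl hrw rfl, rowsLB_eq (by omega) hf]
    rw [e1, e2, e2, forceL_eq, force_eq, force_eq, force_eq, force_eq, force_eq, force_eq,
      force_eq, force_eq, e3, e3]
    exact runB_eq hrw hf num (a + 1) _ _ (by omega)

/-- **A checked chunk, both signs.** -/
theorem chB {t : TyE} {ν : ℕ → ℕ → ℕ} {nk : ℕ} (ht : t.Ok ν nk) {TT rw o bl bu : ℕ}
    {fs : List LB} (hf : t.bs = fs.map (LB.toBD t.w o nk)) (hfo : FOk t.w bl bu o t.oU nk fs)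
    (hR : t.R = RcE TT rw) (hrw : Nat.ble 19 rw = true)
    (num a b X Y X' Y' : ℕ)
    (h : and (Nat.beq (Nat.add a num) b) (and (Nat.ble b nk)
      (ckB t TT rw o fs num a X Y X' Y')) = true) :
    Ch t true a b X X' ∧ Ch t false a b Y Y' := by
  simp only [Bool.and_eq_true] at h
  have h1 : a + num = b := Nat.eq_of_beq_eq_true h.1
  have h2 : b ≤ nk := Nat.le_of_ble_eq_true h.2.1
  have h3 := h.2.2
  have hrw' := Nat.le_of_ble_eq_true hrw
  unfold ckB at h3
  simp only [force_eq, forceT_eq] at h3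
  have h4 := runB_eq (β := t.β) (rw := rw) (Ws := t.Ws) (TT := TT) (n := t.n) (BP := t.BP)
    (CP := cstX t.oU (mkTL (fun b => b.Tn) fs)) (CP' := cstX t.oU (mkTL (fun b => b.Sn) fs))
    (CN := cstX t.oU (mkTL (fun b => b.Tp) fs)) (CN' := cstX t.oU (mkTL (fun b => b.Sp) fs))
    (TP := mkTL (fun b => b.Tp) fs) (TP' := mkTL (fun b => b.Sp) fs)
    (TN := mkTL (fun b => b.Tn) fs) (TN' := mkTL (fun b => b.Sn) fs)
    (EL := t.EL) (X' := X') (Y' := Y') hrw' hfo num a X Y (by omega)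
  have h5 : runB t.β rw (2 ^ t.β - 1) t.Ws TT (t.Ws * 512) t.n (rw * t.n) (2 ^ (rw * t.n) - 1)
      t.BP t.w (2 ^ t.w - 1) o
      (cstX t.oU (mkTL (fun b => b.Tn) fs)) (cstX t.oU (mkTL (fun b => b.Sn) fs))
      (cstX t.oU (mkTL (fun b => b.Tp) fs)) (cstX t.oU (mkTL (fun b => b.Sp) fs))
      (mkTL (fun b => b.Tp) fs) (mkTL (fun b => b.Sp) fs)
      (mkTL (fun b => b.Tn) fs) (mkTL (fun b => b.Sn) fs) fs t.EL X' Y' num a X Y = true := h3
  rw [h4, Bool.and_eq_true] at h5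
  have e1 : t.runL TT rw o fs true num a X = H147.runL t.β rw (2 ^ t.β - 1) t.Ws TT t.n
      (rw * t.n) t.BP t.w (2 ^ t.w - 1) o (cstX t.oU (mkTL (fun b => b.Tn) fs))
      (cstX t.oU (mkTL (fun b => b.Sn) fs)) (mkTL (fun b => b.Tp) fs) (mkTL (fun b => b.Sp) fs)
      fs t.EL num a X := by
    unfold TyE.runL
    simp only [forceT_eq, force_eq]
    rfl
  have e2 : t.runL TT rw o fs false num a Y = H147.runL t.β rw (2 ^ t.β - 1) t.Ws TT t.n
      (rw * t.n) t.BP t.w (2 ^ t.w - 1) o (cstX t.oU (mkTL (fun b => b.Tp) fs))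
      (cstX t.oU (mkTL (fun b => b.Sp) fs)) (mkTL (fun b => b.Tn) fs) (mkTL (fun b => b.Sn) fs)
      fs t.EL num a Y := by
    unfold TyE.runL
    simp only [forceT_eq, force_eq]
    rfl
  have h6 := Nat.eq_of_beq_eq_true h5.1
  have h7 := Nat.eq_of_beq_eq_true h5.2
  rw [← e1, runL_eq hf hR hrw' true num a X (by omega)] at h6
  rw [← e2, runL_eq hf hR hrw' false num a Y (by omega)] at h7
  rw [← h6, ← h7, ← h1]
  exact ⟨Ch.run ht true num a X (by omega), Ch.run ht false num a Y (by omega)⟩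

end Vale.Agent.P355.H182.Bk
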