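import Vale.Agent.P355.H182.Bk

/-! Runs with buckets, one sign. -/

namespace Vale.Agent.P355.H182.Bk

open Finset Vale.Agent.P355 Vale.Agent.P355.H147
open Vale.Agent.P355.H998.E (RcE)
open Vale.Agent.P355.H129 (force force_eq)

/-- `num` rows starting with `k`. -/
def runB1 (β rw mβ Ws TT M n nrw mE BP w mw o C C' : ℕ)
    (TS TS' : List (ℕ × List ℕ)) (fs : List LB) (EL : List ℕ) (num : ℕ) : ℕ → ℕ → ℕ :=
  Nat.rec (motive := fun _ => ℕ → ℕ → ℕ) (fun _ x => x)
    (fun _ ih k x => force (forceL (rowsLB mw w o k fs) fun Rs => force (nthL EL k) fun E =>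
      accKb β rw mβ Ws TT M n nrw mE BP w mw C C' TS TS' k E Rs x) fun x' =>
      force (Nat.succ k) fun k' => ih k' x') num

/-- the parameters are forced once. -/
def rB1 (t : TyE) (TT rw o : ℕ) (fs : List LB) (s : Bool) (num a X : ℕ) : ℕ :=
  force (Nat.sub (Nat.pow 2 t.β) 1) fun mβ => force (Nat.sub (Nat.pow 2 t.w) 1) fun mw =>
  force (Nat.mul rw t.n) fun nrw => force (Nat.sub (Nat.pow 2 nrw) 1) fun mE =>
  force t.β fun β => force t.Ws fun Ws => force (Nat.mul Ws 512) fun M => force t.n fun n =>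
  force t.BP fun BP => force t.w fun w =>
  force (cstX t.oU (mkTL (fun b => cond s b.Tn b.Tp) fs)) fun C =>
  force (cstX t.oU (mkTL (fun b => cond s b.Sn b.Sp) fs)) fun C' =>
  forceT (mkTL (fun b => cond s b.Tp b.Tn) fs) fun TS =>
  forceT (mkTL (fun b => cond s b.Sp b.Sn) fs) fun TS' =>
  force X fun x =>
  runB1 β rw mβ Ws TT M n nrw mE BP w mw o C C' TS TS' fs t.EL num a x

theorem runB1_eq {β rw Ws TT n BP w o C C' : ℕ} {TS TS' : List (ℕ × List ℕ)}
    {fs : List LB} {EL : List ℕ} {bl bu oU nk : ℕ} (hrw : 19 ≤ rw)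
    (hf : FOk w bl bu o oU nk fs) : ∀ (num a X : ℕ), a + num ≤ nk →
    runB1 β rw (2 ^ β - 1) Ws TT (Ws * 512) n (rw * n) (2 ^ (rw * n) - 1) BP w (2 ^ w - 1) o
      C C' TS TS' fs EL num a X
    = H147.runL β rw (2 ^ β - 1) Ws TT n (rw * n) BP w (2 ^ w - 1) o C C' TS TS' fs EL num a X
  | 0, a, X, _ => rfl
  | num + 1, a, X, h => by
    have e1 : runB1 β rw (2 ^ β - 1) Ws TT (Ws * 512) n (rw * n) (2 ^ (rw * n) - 1) BP w (2 ^ w - 1)
        o C C' TS TS' fs EL (num + 1) a X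
        = force (forceL (rowsLB (2 ^ w - 1) w o a fs) fun Rs => force (nthL EL a) fun E =>
          accKb β rw (2 ^ β - 1) Ws TT (Ws * 512) n (rw * n) (2 ^ (rw * n) - 1) BP w
            (2 ^ w - 1) C C' TS TS' a E Rs X) fun x' =>
          force (a + 1) fun k' =>
          runB1 β rw (2 ^ β - 1) Ws TT (Ws * 512) n (rw * n) (2 ^ (rw * n) - 1) BP w (2 ^ w - 1)
            o C C' TS TS' fs EL num k' x' := rfl
    have e2 : H147.runL β rw (2 ^ β - 1) Ws TT n (rw * n) BP w (2 ^ w - 1) o C C' TS TS' fs EL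
        (num + 1) a X
        = force (rowL β rw (2 ^ β - 1) Ws TT n (rw * n) BP w (2 ^ w - 1) o C C' TS TS' fs EL a X)
          fun x => force (a + 1) fun k' =>
          H147.runL β rw (2 ^ β - 1) Ws TT n (rw * n) BP w (2 ^ w - 1) o C C' TS TS' fs EL num
            k' x := rfl
    have e3 : rowL β rw (2 ^ β - 1) Ws TT n (rw * n) BP w (2 ^ w - 1) o C C' TS TS' fs EL a X
        = accKb β rw (2 ^ β - 1) Ws TT (Ws * 512) n (rw * n) (2 ^ (rw * n) - 1) BP w
            (2 ^ w - 1) C C' TS TS' a (nthL EL a) (rowsLB (2 ^ w - 1) w o a fs) X := by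
      unfold rowL
      rw [forceL_eq, force_eq, accKb_eq rfl rfl hrw rfl, rowsLB_eq (by omega) hf]
    rw [e1, e2, e3]
    simp only [forceL_eq, force_eq]
    exact runB1_eq hrw hf num (a + 1) _ (by omega)

/-- **A checked chunk.** -/
theorem chB1 {t : TyE} {ν : ℕ → ℕ → ℕ} {nk : ℕ} (ht : t.Ok ν nk) {TT rw o bl bu : ℕ}
    {fs : List LB} (hf : t.bs = fs.map (LB.toBD t.w o nk)) (hfo : FOk t.w bl bu o t.oU nk fs)
    (hR : t.R = RcE TT rw) (hrw : Nat.ble 19 rw = true) (s : Bool)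
    (num a b X X' : ℕ)
    (h : and (Nat.beq (Nat.add a num) b) (and (Nat.ble b nk)
      (Nat.beq (rB1 t TT rw o fs s num a X) X')) = true) :
    Ch t s a b X X' := by
  simp only [Bool.and_eq_true] at h
  have h1 : a + num = b := Nat.eq_of_beq_eq_true h.1
  have h2 : b ≤ nk := Nat.le_of_ble_eq_true h.2.1
  have h3 := Nat.eq_of_beq_eq_true h.2.2
  have hrw' := Nat.le_of_ble_eq_true hrw
  have h5 : rB1 t TT rw o fs s num a X = t.runL TT rw o fs s num a X := by
    unfold rB1 TyE.runL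
    simp only [force_eq, forceT_eq]
    exact runB1_eq hrw' hfo num a X (by omega)
  rw [h5, runL_eq hf hR hrw' s num a X (by omega)] at h3
  rw [← h3, ← h1]
  exact Ch.run ht s num a X (by omega)

end Vale.Agent.P355.H182.Bk
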