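import Vale.Agent.P355.H182.Inj

/-! The block formula: `inj (w :: A)` as a sum over the sub-multisets of `A` merged with `w`. -/

namespace Vale.Agent.P355.H182

open Finset

section lists

variable {M : Type}

/-- sublists with size, product and complement. -/
def subs [Mul M] [One M] : List M → List (ℕ × M × List M)
  | [] => [(0, 1, [])]
  | v :: vs => (subs vs).map (fun t => (t.1, t.2.1, v :: t.2.2)) ++
      (subs vs).map (fun t => (t.1 + 1, v * t.2.1, t.2.2))

/-- all choices of one member. -/
def picks : List M → List (M × List M)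
  | [] => []
  | v :: vs => (v, vs) :: (picks vs).map fun t => (t.1, v :: t.2)

theorem length_picks (A : List M) : ∀ t ∈ picks A, t.2.length < A.length := by
  induction A with
  | nil => intro t h; simp [picks] at h
  | cons v vs ih =>
    intro t h
    simp only [picks, List.mem_cons, List.mem_map] at h
    rcases h with rfl | ⟨t, ht, rfl⟩
    · simp
    · simpa using ih t ht

theorem sum_subs_cons [Mul M] [One M] (v : M) (vs : List M) (g : ℕ × M × List M → ℂ) :
    ((subs (v :: vs)).map g).sum
      = ((subs vs).map fun t => g (t.1, t.2.1, v :: t.2.2) + g (t.1 + 1, v * t.2.1, t.2.2)).sum := by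
  simp only [subs, List.map_append, List.sum_append, List.map_map, List.sum_map_add]
  rfl

theorem double_count [CommMonoid M] (A : List M) (g : ℕ → M → List M → ℂ) :
    ((picks A).map fun t => ((subs t.2).map fun s => g (s.1 + 1) (t.1 * s.2.1) s.2.2).sum).sum
      = ((subs A).map fun s => (s.1 : ℂ) * g s.1 s.2.1 s.2.2).sum := by
  induction A generalizing g with
  | nil => simp [picks, subs]
  | cons v vs ih =>
    have i1 := ih fun k s r => g k s (v :: r)
    have i2 := ih fun k s r => g (k + 1) (v * s) r
    simp only [picks, List.map_cons, List.sum_cons, List.map_map, Function.comp_def, sum_subs_cons]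
    have e2 : ∀ t : M × List M,
        ((subs t.2).map fun s => g (s.1 + 1) (t.1 * s.2.1) (v :: s.2.2)
          + g (s.1 + 1 + 1) (t.1 * (v * s.2.1)) s.2.2).sum
        = ((subs t.2).map fun s => g (s.1 + 1) (t.1 * s.2.1) (v :: s.2.2)).sum
          + ((subs t.2).map fun s => g (s.1 + 1 + 1) (v * (t.1 * s.2.1)) s.2.2).sum := by
      intro t
      rw [← List.sum_map_add]
      congr 1
      refine List.map_congr_left fun s _ => ?_
      rw [mul_left_comm]
    simp only [e2, List.sum_map_add, i1, i2]
    have e3 : (List.map (fun x : ℕ × M × List M => ((x.1 + 1 : ℕ) : ℂ) * g (x.1 + 1) (v * x.2.1)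
        x.2.2) (subs vs)).sum
        = ((subs vs).map fun s => (s.1 : ℂ) * g (s.1 + 1) (v * s.2.1) s.2.2).sum
          + ((subs vs).map fun s => g (s.1 + 1) (v * s.2.1) s.2.2).sum := by
      rw [← List.sum_map_add]
      congr 1
      refine List.map_congr_left fun s _ => ?_
      push_cast; ring
    rw [e3]; ring

theorem sum_zero_size [CommMonoid M] (A : List M) (h : M → List M → ℂ) :
    ((subs A).map fun s => if s.1 = 0 then h s.2.1 s.2.2 else 0).sum = h 1 A := by
  induction A generalizing h with
  | nil => simp [subs]
  | cons v vs ih =>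
    rw [sum_subs_cons]
    have := ih fun s r => h s (v :: r)
    rw [← this]
    congr 1
    refine List.map_congr_left fun s _ => ?_
    simp

theorem sum_mulEach (m : M → M → M) (w : M) (A : List M) (F : List M → ℂ)
    (hF : ∀ L L', L.Perm L' → F L = F L') :
    ((mulEach m w A).map F).sum = ((picks A).map fun t => F (m w t.1 :: t.2)).sum := by
  induction A generalizing F with
  | nil => simp [mulEach, picks]
  | cons g gs ih =>
    have := ih (fun L => F (g :: L)) fun L L' h => hF _ _ (h.cons g)
    simp only [mulEach, picks, List.map_cons, List.sum_cons, List.map_map, Function.comp_def, this]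
    congr 2
    refine List.map_congr_left fun t _ => hF _ _ (List.Perm.swap _ _ _)

end lists

variable {β : Type} [Fintype β] [DecidableEq β]

/-- full sum. -/
noncomputable def fs (f : β → ℂ) : ℂ := ∑ b, f b

theorem block (A : List (β → ℂ)) (w : β → ℂ) :
    inj (w :: A) ∅ = ((subs A).map fun s =>
      ((-1 : ℂ) ^ s.1 * (s.1.factorial : ℂ)) * fs (w * s.2.1) * inj s.2.2 ∅).sum := by
  induction hn : A.length using Nat.strong_induction_on generalizing A w with
  | _ n ih =>
    subst hn
    have h1 : (fun (f g : β → ℂ) (b : β) => f b * g b) = fun f g => f * g := rfl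
    rw [inj_expand, h1, sum_mulEach (fun f g => f * g) w A (fun L => inj L ∅)
      fun L L' h => inj_perm h ∅]
    have h2 : ((picks A).map fun t => inj (w * t.1 :: t.2) (∅ : Finset β)).sum
        = ((picks A).map fun t => ((subs t.2).map fun s =>
          (fun (k : ℕ) (s : β → ℂ) (r : List (β → ℂ)) =>
            ((-1 : ℂ) ^ (k - 1) * ((k - 1).factorial : ℂ)) * fs (w * s) * inj r ∅)
            (s.1 + 1) (t.1 * s.2.1) s.2.2).sum).sum := by
      congr 1
      refine List.map_congr_left fun t ht => ?_
      rw [ih _ (length_picks A t ht) t.2 (w * t.1) rfl]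
      congr 1
      refine List.map_congr_left fun s _ => ?_
      simp only [Nat.add_sub_cancel, mul_assoc]
    have h3 := sum_zero_size A fun s r => fs (w * s) * inj r (∅ : Finset β)
    simp only [mul_one] at h3
    have h6 := double_count A (fun (k : ℕ) (s : β → ℂ) (r : List (β → ℂ)) =>
            ((-1 : ℂ) ^ (k - 1) * ((k - 1).factorial : ℂ)) * fs (w * s) * inj r ∅)
    rw [h2, h6]
    have h4 : (∑ b ∈ (∅ : Finset β)ᶜ, w b) = fs w := by simp [fs]
    rw [h4, ← h3, ← sub_eq_zero, ← neg_eq_zero]
    have h5 : ∀ s : ℕ × (β → ℂ) × List (β → ℂ),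
        ((s.1 : ℂ) * (((-1 : ℂ) ^ (s.1 - 1) * ((s.1 - 1).factorial : ℂ)) * fs (w * s.2.1) *
          inj s.2.2 ∅) + ((-1 : ℂ) ^ s.1 * (s.1.factorial : ℂ)) * fs (w * s.2.1) * inj s.2.2 ∅)
        = if s.1 = 0 then fs (w * s.2.1) * inj s.2.2 ∅ else 0 := by
      intro s
      rcases hs : s.1 with _ | k
      · simp
      · simp only [Nat.add_sub_cancel, Nat.factorial_succ, Nat.succ_ne_zero, if_false]
        push_cast
        ring
    rw [show ∀ a b c : ℂ, -(a - b - c) = (b + c) - a from fun a b c => by ring,
      ← List.sum_map_add]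
    simp only [h5, sub_self]

/-! ### Grouped form -/

/-- the list of a grouped list. -/
def unG {M : Type} : List (M × ℕ) → List M
  | [] => []
  | g :: G => List.replicate g.2 g.1 ++ unG G

theorem sum_subs_replicate {M : Type} [CommMonoid M] (v : M) (m : ℕ) (A : List M)
    (g : ℕ → M → List M → ℂ) :
    ((subs (List.replicate m v ++ A)).map fun s => g s.1 s.2.1 s.2.2).sum
      = ∑ j ∈ range (m + 1), (m.choose j : ℂ) * ((subs A).map fun s =>
        g (s.1 + j) (v ^ j * s.2.1) (List.replicate (m - j) v ++ s.2.2)).sum := by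
  induction m generalizing g with
  | zero => simp
  | succ m ih =>
    rw [List.replicate_succ, List.cons_append, sum_subs_cons, List.sum_map_add,
      ih fun k s r => g k s (v :: r), ih fun k s r => g (k + 1) (v * s) r]
    set H : ℕ → ℂ := fun j => ((subs A).map fun s =>
        g (s.1 + j) (v ^ j * s.2.1) (List.replicate (m + 1 - j) v ++ s.2.2)).sum with hH
    have e1 : ∀ j ∈ range (m + 1), (m.choose j : ℂ) * ((subs A).map fun s =>
        g (s.1 + j) (v ^ j * s.2.1) (v :: (List.replicate (m - j) v ++ s.2.2))).sum
        = (m.choose j : ℂ) * H j := by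
      intro j hj
      have hj' : j ≤ m := by simpa [Nat.lt_succ_iff] using hj
      congr 2
      refine List.map_congr_left fun s _ => ?_
      rw [show m + 1 - j = (m - j) + 1 by omega, List.replicate_succ, List.cons_append]
    have e2 : ∀ j ∈ range (m + 1), (m.choose j : ℂ) * ((subs A).map fun s =>
        g (s.1 + j + 1) (v * (v ^ j * s.2.1)) (List.replicate (m - j) v ++ s.2.2)).sum
        = (m.choose j : ℂ) * H (j + 1) := by
      intro j _
      congr 2
      refine List.map_congr_left fun s _ => ?_
      rw [pow_succ', mul_assoc, show m + 1 - (j + 1) = m - j by omega, add_assoc]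
    rw [Finset.sum_congr rfl e1, Finset.sum_congr rfl e2]
    rw [Finset.sum_range_succ' (fun j => ((m + 1).choose j : ℂ) * H j),
      Finset.sum_range_succ' (fun j => (m.choose j : ℂ) * H j)]
    have e3 : ∀ j ∈ range (m + 1), (((m + 1).choose (j + 1) : ℕ) : ℂ) * H (j + 1)
        = (m.choose (j + 1) : ℂ) * H (j + 1) + (m.choose j : ℂ) * H (j + 1) := by
      intro j _
      rw [Nat.choose_succ_succ]
      push_cast; ring
    rw [Finset.sum_congr rfl e3, Finset.sum_add_distrib, Finset.sum_range_succ (fun j =>
      (m.choose (j + 1) : ℂ) * H (j + 1)), Nat.choose_succ_self]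
    simp only [Nat.choose_zero_right]
    push_cast
    ring

end Vale.Agent.P355.H182
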