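import Vale.Agent.P355.H182.Sem

/-! Kernel check of chunks of exactness and (N7) relations: definitions. -/

namespace Vale.Agent.P355.H182

open Finset Vale.Agent.P355 Vale.Agent.P355.H138

/-- search tree: key and position. -/
inductive KT where
  | nil : KT
  | node (l : KT) (k id : ℕ) (r : KT) : KT

/-- position of a key, `0` if absent. -/
def KT.find (key : ℕ) : KT → ℕ
  | .nil => 0
  | .node l k id r => cond (Nat.beq key k) id (cond (Nat.ble key k) (l.find key) (r.find key))

/-- in-order list. -/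
def KT.toL : KT → List (ℕ × ℕ) → List (ℕ × ℕ)
  | .nil, a => a
  | .node l k id r, a => l.toL ((k, id) :: r.toL a)

/-- packed list of codes. -/
def pk : List ℕ → ℕ
  | [] => 0
  | c :: l => Nat.add (Nat.add (Nat.mod c 1073741824) 1) (Nat.mul 2147483648 (pk l))

/-- key of a graph. -/
def keyN (pr h : ℕ) (l : List ℕ) : ℕ := Nat.add pr (Nat.mul 2 (Nat.add h (Nat.mul 1073741824 (pk l))))

/-- powers of six by recursion. -/
def p6 : ℕ → ℕ
  | 0 => 1
  | n + 1 => Nat.mul 6 (p6 n)

/-- length. -/
def lenN : List ℕ → ℕ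
  | [] => 0
  | _ :: l => Nat.succ (lenN l)

/-- contribution of a leaf. -/
def ctr (w top co id s : ℕ) : ℕ :=
  Nat.add (Nat.shiftLeft co (Nat.mul w (Nat.add (Nat.mul 2 id) (Nat.mod s 2)))) (Nat.shiftLeft co top)

/-- leaf function. -/
def lfN (T : KT) (w top h : ℕ) (l : List ℕ) (e mg s : ℕ) : ℕ :=
  ctr w top (Nat.mul mg (p6 (Nat.add (Nat.div e 2) (lenN l)))) (T.find (keyN (Nat.mod e 2) h l)) s

/-- one relation: row vertex (`0` for exactness), sign, power of `√6`, weight, marked column,
context columns, grouped columns. -/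
structure Ins where
  i0 : ℕ
  s : ℕ
  g : ℕ
  lam : ℕ
  h : ℕ
  M : List ℕ
  G : List (ℕ × ℕ)

/-- code modulo `64 ^ 5` of a shifted code. -/
def toE (c : ℕ) : ℕ := Nat.mod (Nat.add c 528349152) 1073741824

/-- packed value of a relation. -/
def Ins.val (mk : Bool) (T : KT) (w top : ℕ) (i : Ins) : ℕ :=
  run' cmN chN facN Nat.add (trN mk) insN (lfN T w top i.h) 8
    (i.G.map fun g => (toE g.1, g.2)) (i.M.map toE) i.g i.lam i.s

/-- digit of a shifted code. -/
def dgN (c i : ℕ) : ℕ := Nat.land (Nat.shiftRight c (Nat.mul 6 i)) 63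

/-- absolute value of a digit. -/
def abN (d : ℕ) : ℕ := Nat.add (Nat.sub d 32) (Nat.sub 32 d)

/-- total size of the coordinate `i`. -/
def bndN (i : ℕ) : List (ℕ × ℕ) → ℕ
  | [] => 0
  | (c, m) :: G => Nat.add (Nat.mul m (abN (dgN c i))) (bndN i G)

/-- total multiplicity. -/
def totN : List (ℕ × ℕ) → ℕ
  | [] => 0
  | (_, m) :: G => Nat.add m (totN G)

/-- a small column. -/
def smN (c : ℕ) : Bool := Nat.ble c 1073741823 && !(Nat.beq (dgN c 0) 0) && !(Nat.beq (dgN c 1) 0) &&
  !(Nat.beq (dgN c 2) 0) && !(Nat.beq (dgN c 3) 0) && !(Nat.beq (dgN c 4) 0)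

/-- the list of the digits `i` of all members of the groups. -/
def patN (i : ℕ) : List (ℕ × ℕ) → List ℕ
  | [] => []
  | (c, m) :: G => List.replicate m (dgN c i) ++ patN i G

/-- equality of lists of numbers. -/
def eqN : List ℕ → List ℕ → Bool
  | [], [] => true
  | a :: l, b :: l' => Nat.beq a b && eqN l l'
  | _, _ => false

/-- check for all members. -/
def allN (f : ℕ → Bool) : List ℕ → Bool
  | [] => true
  | a :: l => f a && allN f l

/-- check of the groups. -/
def grN : List (ℕ × ℕ) → Bool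
  | [] => true
  | (c, m) :: G => smN c && Nat.ble 1 m && Nat.ble m 7 && grN G

/-- well-formed relation. -/
def Ins.ok (K : ℕ) (i : Ins) : Bool :=
  grN i.G && Nat.ble (bndN 0 i.G) 31 && Nat.ble (bndN 1 i.G) 31 && Nat.ble (bndN 2 i.G) 31 &&
  Nat.ble (bndN 3 i.G) 31 && Nat.ble (bndN 4 i.G) 31 && Nat.ble (totN i.G) 8 &&
  Nat.ble i.h 1073741823 && allN smN i.M &&
  cond (Nat.beq i.i0 0) (Nat.ble 7 (totN i.G))
    (Nat.ble i.i0 4 && Nat.ble i.i0 K && Nat.beq (dgN i.h i.i0) 32 &&
      allN (fun c => Nat.beq (dgN c i.i0) 32) i.M && eqN (patN i.i0 i.G) [33, 33, 33, 31, 31, 31])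

/-- a distinct graph: net coefficient `cp - cn`, parity, marked column, columns (shifted codes). -/
structure Ent where
  cp : ℕ
  cn : ℕ
  pr : ℕ
  h : ℕ
  cols : List ℕ

/-- key of an entry. -/
def Ent.key (e : Ent) : ℕ := keyN e.pr e.h (e.cols.map toE)

/-- well-formed entry. -/
def Ent.ok (K : ℕ) (e : Ent) : Bool :=
  Nat.ble e.pr 1 && Nat.ble e.h 1073741823 && allN smN e.cols && Nat.ble (lenN e.cols) K

/-- comparison of the tree with the entries. -/
def chkT : ℕ → List Ent → List (ℕ × ℕ) → Bool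
  | _, [], [] => true
  | n, e :: es, (k, id) :: l => Nat.beq e.key k && Nat.beq id n && chkT (Nat.succ n) es l
  | _, _, _ => false

/-- check of the digits of the packed sum. -/
def chkD (w B : ℕ) : List Ent → ℕ → Bool
  | [], N => Nat.ble (Nat.succ N) B
  | e :: es, N => Nat.beq (Nat.add (Nat.mod N B) e.cn) (Nat.add (Nat.mod (Nat.shiftRight N w) B) e.cp) &&
      chkD w B es (Nat.shiftRight N (Nat.mul 2 w))

/-- all entries are well formed. -/
def allE (K : ℕ) : List Ent → Bool
  | [] => true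
  | e :: es => e.ok K && allE K es

/-- all relations are well formed. -/
def allI (K : ℕ) : List Ins → Bool
  | [] => true
  | i :: is => i.ok K && allI K is

/-- number of entries. -/
def lenE : List Ent → ℕ
  | [] => 0
  | _ :: l => Nat.succ (lenE l)

/-- sum over the relations of a chunk. -/
def sumI (mk : Bool) (T : KT) (w top : ℕ) : List Ins → ℕ
  | [] => 0
  | i :: is => Nat.add (i.val mk T w top) (sumI mk T w top is)

/-- check of the data of a chunk (tree, entries, literal of the packed sum). -/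
def chkC (K w : ℕ) (T : KT) (es : List Ent) (is : List Ins) (N : ℕ) : Bool :=
  Nat.ble 4 K && allI K is && allE K es && chkT 1 es (T.toL []) &&
  chkD w (Nat.shiftLeft 1 w) (⟨0, 0, 0, 0, []⟩ :: es) N &&
  Nat.beq (Nat.mod N (Nat.shiftLeft 1 (Nat.mul 2 w))) 0

end Vale.Agent.P355.H182
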