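import Vale.Agent.P355.H182.Fst
import Vale.Agent.P355.H138.Chunk

/-! The chunk theorem in the form used by the conversion to class values. -/

namespace Vale.Agent.P355.H182

open Finset Vale.Agent.P355 Vale.Agent.P355.H138

theorem d64_dgN (c i : ℕ) (hi : i < 5) : (d64 c i : ℕ) = dgN c i := by
  rw [dgN_eq]
  unfold d64
  interval_cases i <;> norm_num [Nat.shiftRight_eq_div_pow]

theorem mat_fE {K : ℕ} (h : ℕ) (cols : List ℕ) :
    Mf K (fOf K (mat K (decV h :: cols.map decV))) = Mf K (fE (h :: cols)) := by
  funext p q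
  have hp := idx_lt p
  have hq := idx_lt q
  unfold Mf
  rw [fOf_mat _ (by omega) (by omega)]
  have e1 : (decV h :: cols.map decV) = (h :: cols).map decV := rfl
  rw [e1]
  unfold fE
  generalize h :: cols = C
  generalize idx p = i
  generalize idx q = j
  by_cases hj : j < C.length
  · have e2 : (C.map decV).getD j [] = decV C[j] := by
      rw [List.getD_eq_getElem?_getD, List.getElem?_map, List.getElem?_eq_getElem hj]; rfl
    have e3 : C.getD j Zc = C[j] := by
      rw [List.getD_eq_getElem?_getD, List.getElem?_eq_getElem hj]; rfl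
    rw [e2, e3]
    by_cases hi : i < 5
    · rw [if_pos hi, getD_decV _ _ hi, d64_dgN _ _ hi]
    · rw [if_neg hi, getD_decV' _ _ (by omega)]
  · have e2 : (C.map decV).getD j [] = [] := by
      rw [List.getD_eq_getElem?_getD, List.getElem?_eq_none (by simpa using hj)]; rfl
    have e3 : C.getD j Zc = Zc := by
      rw [List.getD_eq_getElem?_getD, List.getElem?_eq_none (by simpa using hj)]; rfl
    rw [e2, e3]
    by_cases hi : i < 5
    · rw [if_pos hi, d64_dgN _ _ hi]
      have : dgN Zc i = 32 := by interval_cases i <;> decide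
      rw [this]; simp
    · rw [if_neg hi]; simp

theorem chunkE {mk : Bool} {K : ℕ} {x : Fin 7 → Fin 7 → ℂ} (hx : H138.Good mk x) (hN : N7x x) {w : ℕ}
    {T : KT} {es : List Ent} {is : List Ins} {N : ℕ} (hc : chkC K w T es is N = true)
    (hs : Nat.beq (sumF mk T w (w * (2 * (es.length + 1))) is) N = true) :
    (es.map fun e => ((e.cp : ℝ) - e.cn) *
      rv x (Nat.beq e.pr 1) (Mf K (fE (e.h :: e.cols)))).sum = 0 := by
  have h1 := chunkF hx hN hc hs
  unfold HoldsG at h1
  rw [List.map_map] at h1
  rw [← h1]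
  congr 1
  refine List.map_congr_left fun e _ => ?_
  simp only [Function.comp]
  have h2 : Nat.beq e.pr 1 = decide (e.pr = 1) := by
    by_cases h : e.pr = 1
    · rw [h]; rfl
    · have : Nat.beq e.pr 1 = false := by rwa [← Bool.not_eq_true, Nat.beq_eq]
      rw [this]; simp [h]
  rw [h2, ← mat_fE]
  unfold Ent.mat
  push_cast
  rfl

end Vale.Agent.P355.H182
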