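import Vale.Agent.P355.H182.Snd

/-! The chunk theorem. -/

namespace Vale.Agent.P355.H182

open Finset Vale.Agent.P355 Vale.Agent.P355.H138

variable {K : ℕ}

/-! ### Keys -/

theorem lenN_eq (l : List ℕ) : lenN l = l.length := by
  induction l with
  | nil => rfl
  | cons a l ih => simp [lenN, ih]

theorem p6_eq (n : ℕ) : p6 n = 6 ^ n := by
  induction n with
  | zero => rfl
  | succ n ih =>
    have : p6 (n + 1) = 6 * p6 n := rfl
    rw [this, ih, pow_succ']

theorem pk_inj {l l' : List ℕ} (h : pk l = pk l') :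
    l.map (fun c => c % 1073741824) = l'.map (fun c => c % 1073741824) := by
  have hc : ∀ (c : ℕ) (l : List ℕ), pk (c :: l) = c % 1073741824 + 1 + 2147483648 * pk l :=
    fun c l => rfl
  have h0 : pk [] = 0 := rfl
  induction l generalizing l' with
  | nil =>
    cases l' with
    | nil => rfl
    | cons b l' => rw [hc, h0] at h; omega
  | cons a l ih =>
    cases l' with
    | nil => rw [hc, h0] at h; omega
    | cons b l' =>
      rw [hc, hc] at h
      have ha := Nat.mod_lt a (show 0 < 1073741824 by norm_num)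
      have hb := Nat.mod_lt b (show 0 < 1073741824 by norm_num)
      have e1 : a % 1073741824 = b % 1073741824 := by omega
      have e2 : pk l = pk l' := by omega
      simp only [List.map_cons, e1, ih e2]

theorem pvN_congr {x : Fin 7 → Fin 7 → ℂ} (φ : Fin K → Fin 6) {l l' : List ℕ}
    (h : l.map (fun c => c % 1073741824) = l'.map (fun c => c % 1073741824)) :
    pvN K x φ l = pvN K x φ l' := by
  have e : ∀ l : List ℕ, pvN K x φ l
      = ((l.map (fun c => c % 1073741824)).map fun c => csum K x φ (decN c)).prod := by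
    intro l
    unfold pvN
    rw [List.map_map]; rfl
  rw [e, e, h]

/-- normalised value of a graph. -/
noncomputable def nv (K : ℕ) (x : Fin 7 → Fin 7 → ℂ) (pr h : ℕ) (l : List ℕ) : ℝ :=
  r6 ^ pr * gR K x h l / 6 ^ l.length

theorem keyN_inj {pr pr' h h' : ℕ} {l l' : List ℕ} (hk : keyN pr h l = keyN pr' h' l')
    (h1 : pr < 2) (h2 : pr' < 2) (h3 : h < 1073741824) (h4 : h' < 1073741824) :
    pr = pr' ∧ h = h' ∧ pk l = pk l' := by
  have e : ∀ (pr h : ℕ) (l : List ℕ), keyN pr h l = pr + 2 * (h + 1073741824 * pk l) :=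
    fun _ _ _ => rfl
  rw [e, e] at hk
  refine ⟨?_, ?_, ?_⟩ <;> omega

theorem nv_congr (x : Fin 7 → Fin 7 → ℂ) {pr pr' h h' : ℕ} {l l' : List ℕ}
    (hk : keyN pr h l = keyN pr' h' l')
    (h1 : pr < 2) (h2 : pr' < 2) (h3 : h < 1073741824) (h4 : h' < 1073741824) :
    nv K x pr h l = nv K x pr' h' l' := by
  obtain ⟨rfl, rfl, h5⟩ := keyN_inj hk h1 h2 h3 h4
  have h6 := pk_inj h5
  have h7 : l.length = l'.length := by simpa using congrArg List.length h6
  unfold nv gR gN
  simp only [pvN_congr _ h6, h7]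

/-- value of an entry. -/
noncomputable def Ent.nv (K : ℕ) (x : Fin 7 → Fin 7 → ℂ) (e : Ent) : ℝ :=
  H182.nv K x e.pr e.h (e.cols.map toE)

/-- the matrix of an entry. -/
def Ent.mat (K : ℕ) (e : Ent) : List ℤ := H182.mat K (decV e.h :: e.cols.map decV)

theorem Ent.nv_eq {x : Fin 7 → Fin 7 → ℂ} (e : Ent) (he : e.ok K = true) :
    e.nv K x = 2 * 6 ^ K * rv x (decide (e.pr = 1)) (Mf K (fOf K (e.mat K))) := by
  simp only [Ent.ok, Bool.and_eq_true, Nat.ble_eq] at he
  obtain ⟨⟨⟨h1, _⟩, h3⟩, h4⟩ := he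
  rw [lenN_eq] at h4
  have h3' := allN_spec h3
  have h5 : ∀ y : Fin 7 → Fin 7 → ℂ, gN K y e.h (e.cols.map toE)
      = 6 ^ (K + e.cols.length) * gv y (Mf K (fOf K (e.mat K))) := by
    intro y
    have h6 := gv_mat (x := y) (decV e.h) (e.cols.map decV) (by simpa using h4)
    rw [List.length_map] at h6
    unfold Ent.mat
    rw [h6]
    unfold gN gcv
    refine Finset.sum_congr rfl fun φ _ => ?_
    rw [pvN_toE φ h3']
  have h7 : ∀ y : Fin 7 → Fin 7 → ℂ, (gN K y e.h (e.cols.map toE)).re
      = 6 ^ (K + e.cols.length) * (gv y (Mf K (fOf K (e.mat K)))).re := by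
    intro y
    rw [h5]
    have : ((6 : ℂ) ^ (K + e.cols.length)) = (((6 : ℝ) ^ (K + e.cols.length) : ℝ) : ℂ) := by
      push_cast; ring
    rw [this, Complex.re_ofReal_mul]
  unfold Ent.nv H182.nv gR rv
  rw [h7, h7, List.length_map]
  have h8 : r6 ^ e.pr = pw6 (decide (e.pr = 1)) := by
    have : e.pr = 0 ∨ e.pr = 1 := by omega
    rcases this with h | h
    · rw [h]; simp [pw6]
    · rw [h]; simp [pw6]
  rw [h8, pow_add]
  have h9 : (6 : ℝ) ^ e.cols.length ≠ 0 := pow_ne_zero _ (by norm_num)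
  field_simp

/-! ### The tree -/

theorem KT.toL_append (T : KT) (a : List (ℕ × ℕ)) : T.toL a = T.toL [] ++ a := by
  induction T generalizing a with
  | nil => rfl
  | node l k id r ihl ihr =>
    have e : ∀ a, (KT.node l k id r).toL a = l.toL ((k, id) :: r.toL a) := fun _ => rfl
    rw [e, e, ihl, ihr a, ihl ((k, id) :: r.toL [])]
    simp

theorem KT.find_mem (key : ℕ) (T : KT) :
    T.find key = 0 ∨ (key, T.find key) ∈ T.toL [] := by
  induction T with
  | nil => left; rfl
  | node l k id r ihl ihr =>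
    have e : (KT.node l k id r).toL [] = l.toL [] ++ (k, id) :: r.toL [] := by
      have : (KT.node l k id r).toL [] = l.toL ((k, id) :: r.toL []) := rfl
      rw [this, KT.toL_append]
    have f : (KT.node l k id r).find key = cond (Nat.beq key k) id
        (cond (Nat.ble key k) (l.find key) (r.find key)) := rfl
    rw [e, f]
    rcases h : Nat.beq key k with _ | _
    · rcases h' : Nat.ble key k with _ | _
      · simp only [cond_false]
        rcases ihr with h1 | h1
        · exact Or.inl h1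
        · right; simp [h1]
      · simp only [cond_false, cond_true]
        rcases ihl with h1 | h1
        · exact Or.inl h1
        · right; simp [h1]
    · simp only [cond_true]
      right
      have : key = k := Nat.eq_of_beq_eq_true h
      rw [this]; simp

theorem chkT_spec {n : ℕ} {es : List Ent} {L : List (ℕ × ℕ)} (h : chkT n es L = true) :
    ∀ u ∈ L, ∃ j, ∃ hj : j < es.length, u.2 = n + j ∧ es[j].key = u.1 := by
  induction es generalizing n L with
  | nil =>
    cases L with
    | nil => simp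
    | cons u L => simp [chkT] at h
  | cons e es ih =>
    cases L with
    | nil => simp
    | cons u L =>
      obtain ⟨k, id⟩ := u
      simp only [chkT, Bool.and_eq_true, Nat.beq_eq] at h
      obtain ⟨⟨h1, h2⟩, h3⟩ := h
      intro u hu
      rcases List.mem_cons.1 hu with rfl | hu
      · exact ⟨0, by simp, by simpa using h2, by simpa using h1⟩
      · obtain ⟨j, hj, e1, e2⟩ := ih h3 u hu
        refine ⟨j + 1, by simpa using hj, ?_, by simpa using e2⟩
        rw [e1]; simp only [Nat.succ_eq_add_one]; omega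

theorem allE_spec {es : List Ent} (h : allE K es = true) : ∀ e ∈ es, e.ok K = true := by
  induction es with
  | nil => simp
  | cons b l ih =>
    simp only [allE, Bool.and_eq_true] at h
    intro a ha
    rcases List.mem_cons.1 ha with rfl | ha
    · exact h.1
    · exact ih h.2 a ha

theorem allI_spec {is : List Ins} (h : allI K is = true) : ∀ i ∈ is, i.ok K = true := by
  induction is with
  | nil => simp
  | cons b l ih =>
    simp only [allI, Bool.and_eq_true] at h
    intro a ha
    rcases List.mem_cons.1 ha with rfl | ha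
    · exact h.1
    · exact ih h.2 a ha

/-! ### Regrouping by positions -/

theorem sum_pos (A : List (ℕ × ℕ × ℕ)) (P : ℕ) (hA : ∀ t ∈ A, pos t < P) (G : ℕ → ℝ) :
    (A.map fun t => (t.1 : ℝ) * G (pos t)).sum = ∑ p ∈ range P, (cc A p : ℝ) * G p := by
  induction A with
  | nil => simp [cc]
  | cons t A ih =>
    have h1 := ih fun t ht => hA t (List.mem_cons_of_mem _ ht)
    have h2 : pos t < P := hA t (by simp)
    have e1 : ∀ p, (cc (t :: A) p : ℝ) = (if pos t = p then (t.1 : ℝ) else 0) + cc A p := fun p => by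
      simp [cc]
    rw [List.map_cons, List.sum_cons, h1]
    simp only [e1, add_mul, Finset.sum_add_distrib, ite_mul, zero_mul]
    rw [Finset.sum_ite_eq, if_pos (by simpa using h2)]

theorem sum_range_two_mul (n : ℕ) (f : ℕ → ℝ) :
    ∑ p ∈ range (2 * n), f p = ∑ k ∈ range n, (f (2 * k) + f (2 * k + 1)) := by
  induction n with
  | zero => simp
  | succ n ih =>
    rw [Finset.sum_range_succ, ← ih, show 2 * (n + 1) = 2 * n + 1 + 1 by ring,
      Finset.sum_range_succ, Finset.sum_range_succ]
    ring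

/-- all leaves with their marked column. -/
def allL (mk : Bool) (is : List Ins) : List (ℕ × Leaf) :=
  is.flatMap fun i => (i.lvs mk).map fun t => (i.h, t)

/-- coefficient, position and sign of a leaf. -/
def co (T : KT) (u : ℕ × Leaf) : ℕ × ℕ × ℕ :=
  (Nat.mul u.2.2.2.1 (p6 (Nat.add (Nat.div u.2.2.1 2) (lenN u.2.1))),
    T.find (keyN (Nat.mod u.2.2.1 2) u.1 u.2.1), u.2.2.2.2)

theorem sumI_eq (mk : Bool) (T : KT) (w top : ℕ) (is : List Ins) :
    sumI mk T w top is
      = (((allL mk is).map (co T)).map fun t => ctr w top t.1 t.2.1 t.2.2).sum := by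
  induction is with
  | nil => rfl
  | cons i is ih =>
    have e : sumI mk T w top (i :: is) = i.val mk T w top + sumI mk T w top is := rfl
    have e2 : allL mk (i :: is) = (i.lvs mk).map (fun t => (i.h, t)) ++ allL mk is := by
      simp [allL]
    rw [e, ih, e2, Ins.val_eq]
    simp only [List.map_append, List.sum_append, List.map_map]
    rfl

theorem real_zero {mk : Bool} {x : Fin 7 → Fin 7 → ℂ} (hx : Good mk x) (hN : N7x x)
    (hK : 4 ≤ K) (T : KT) (is : List Ins) (hok : ∀ i ∈ is, i.ok K = true) :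
    ((allL mk is).map fun u => (-1 : ℝ) ^ u.2.2.2.2 * ((co T u).1 : ℝ) *
      nv K x (u.2.2.1 % 2) u.1 u.2.1).sum = 0 := by
  induction is with
  | nil => simp [allL]
  | cons i is ih =>
    have e2 : allL mk (i :: is) = (i.lvs mk).map (fun t => (i.h, t)) ++ allL mk is := by
      simp [allL]
    rw [e2, List.map_append, List.sum_append, ih fun i hi => hok i (List.mem_cons_of_mem _ hi),
      add_zero, ← Ins.real_zero hx hN hK i (hok i (by simp)), List.map_map]
    congr 1
    refine List.map_congr_left fun t _ => ?_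
    simp only [Function.comp, co, nv]
    have e3 : Nat.mul t.2.2.1 (p6 (Nat.add (Nat.div t.2.1 2) (lenN t.1)))
        = t.2.2.1 * 6 ^ (t.2.1 / 2 + t.1.length) := by
      rw [← lenN_eq, ← p6_eq]; rfl
    rw [e3]
    have e4 : r6 ^ t.2.1 = 6 ^ (t.2.1 / 2) * r6 ^ (t.2.1 % 2) := by
      conv_lhs => rw [← Nat.div_add_mod t.2.1 2]
      rw [pow_add, pow_mul, pow_two, r6_sq]
    rw [e4]
    push_cast
    rw [pow_add]
    have h9 : (6 : ℝ) ^ t.1.length ≠ 0 := pow_ne_zero _ (by norm_num)
    field_simp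

theorem mem_allL {mk : Bool} {is : List Ins} {u : ℕ × Leaf} (h : u ∈ allL mk is) :
    ∃ i ∈ is, u.1 = i.h := by
  simp only [allL, List.mem_flatMap, List.mem_map] at h
  obtain ⟨i, hi, t, _, rfl⟩ := h
  exact ⟨i, hi, rfl⟩

/-- **The chunk theorem.** -/
theorem chunk {mk : Bool} {x : Fin 7 → Fin 7 → ℂ} (hx : Good mk x) (hN : N7x x) {w : ℕ}
    {T : KT} {es : List Ent} {is : List Ins} {N : ℕ} (hc : chkC K w T es is N = true)
    (hs : Nat.beq (sumI mk T w (w * (2 * (es.length + 1))) is) N = true) :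
    HoldsG K x (es.map fun e => ((e.cp : ℤ) - e.cn, decide (e.pr = 1), e.mat K)) := by
  simp only [chkC, Bool.and_eq_true, Nat.ble_eq, Nat.beq_eq] at hc
  obtain ⟨⟨⟨⟨⟨hK, hI⟩, hE⟩, hT⟩, hD⟩, hZ⟩ := hc
  have hI' := allI_spec hI
  have hE' := allE_spec hE
  have hT' := chkT_spec hT
  have hs' : sumI mk T w (w * (2 * (es.length + 1))) is = N := Nat.eq_of_beq_eq_true hs
  set n := es.length with hn
  set P := 2 * (n + 1) with hP
  have hsh : ∀ a, Nat.shiftLeft 1 a = 2 ^ a := fun a => by
    have : Nat.shiftLeft 1 a = 1 <<< a := rfl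
    rw [this, Nat.shiftLeft_eq, one_mul]
  rw [hsh] at hD hZ
  obtain ⟨hD1, hD2⟩ := chkD_spec w _ N hD
  set L := allL mk is with hL
  set A := L.map (co T) with hA
  have hid : ∀ u ∈ L, (co T u).2.1 ≤ n := by
    intro u _
    rcases KT.find_mem (keyN (Nat.mod u.2.2.1 2) u.1 u.2.1) T with h | h
    · have : (co T u).2.1 = 0 := h
      omega
    · obtain ⟨j, hj, e1, _⟩ := hT' _ h
      have : (co T u).2.1 = 1 + j := e1
      omega
  have hpos : ∀ t ∈ A, pos t < P := by
    intro t ht
    obtain ⟨u, hu, rfl⟩ := List.mem_map.1 ht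
    have := hid u hu
    unfold pos
    have h2 : (co T u).2.2 % 2 < 2 := Nat.mod_lt _ (by norm_num)
    omega
  have hN1 : N = ∑ p ∈ range P, cc A p * (2 ^ w) ^ p + SS A * (2 ^ w) ^ P := by
    rw [← hs', sumI_eq, ← pack_eq w P A hpos]
  have hB : 0 < 2 ^ w := by positivity
  have hS : SS A < 2 ^ w := by
    refine lt_of_le_of_lt (top_le (2 ^ w) hB (∑ p ∈ range P, cc A p * (2 ^ w) ^ p) (SS A) P) ?_
    rw [← hN1]
    rw [List.length_cons] at hD1
    exact hD1
  have hdig : ∀ p, p < P → dig (2 ^ w) N p = cc A p := by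
    intro p hp
    unfold dig
    rw [hN1]
    exact digit_eq (2 ^ w) (cc A) (SS A) P (fun p => lt_of_le_of_lt (cc_le A p) hS) p hp
  -- the digits 0 and 1 vanish
  have hz : (2 ^ w) ^ 2 ∣ N := by
    have : Nat.mod N (2 ^ (Nat.mul 2 w)) = N % 2 ^ (2 * w) := rfl
    rw [this, mul_comm, pow_mul] at hZ
    exact Nat.dvd_of_mod_eq_zero hZ
  have hc0 : cc A 0 = 0 := by
    rw [← hdig 0 (by omega)]
    unfold dig
    rw [pow_zero, Nat.div_one]
    exact Nat.mod_eq_zero_of_dvd ((Dvd.intro_left (2 ^ w) (by ring)).trans hz)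
  have hc1 : cc A 1 = 0 := by
    rw [← hdig 1 (by omega)]
    unfold dig
    obtain ⟨q, rfl⟩ := hz
    rw [pow_one, pow_two, mul_assoc, Nat.mul_div_cancel_left _ hB, Nat.mul_mod_right]
  -- the values
  let F : ℕ → ℝ := fun id => match id with
    | 0 => 0
    | k + 1 => (es[k]?).elim 0 (Ent.nv K x)
  let G : ℕ → ℝ := fun p => (-1) ^ p * F (p / 2)
  have hval : ∀ u ∈ L, (-1 : ℝ) ^ u.2.2.2.2 * ((co T u).1 : ℝ) * nv K x (u.2.2.1 % 2) u.1 u.2.1
      = ((co T u).1 : ℝ) * G (pos (co T u)) := by
    intro u hu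
    have h2 : (co T u).2.2 % 2 < 2 := Nat.mod_lt _ (by norm_num)
    have hp2 : pos (co T u) / 2 = (co T u).2.1 := by unfold pos; omega
    have hsgn : (-1 : ℝ) ^ pos (co T u) = (-1) ^ u.2.2.2.2 := by
      unfold pos
      rw [pow_add, pow_mul]
      have : (co T u).2.2 = u.2.2.2.2 := rfl
      rw [this]
      conv_rhs => rw [← Nat.div_add_mod u.2.2.2.2 2, pow_add, pow_mul]
      norm_num
    rcases KT.find_mem (keyN (Nat.mod u.2.2.1 2) u.1 u.2.1) T with h | h
    · have h0 : (co T u).2.1 = 0 := h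
      have h1 := le_cc (List.mem_map_of_mem (f := co T) hu)
      have h3 : cc A (pos (co T u)) = 0 := by
        have : pos (co T u) = 0 ∨ pos (co T u) = 1 := by unfold pos; omega
        rcases this with h | h
        · rw [h, hc0]
        · rw [h, hc1]
      have h4 : (co T u).1 = 0 := by
        rw [← hA, h3] at h1; omega
      rw [h4]; simp
    · obtain ⟨j, hj, e1, e2⟩ := hT' _ h
      have h0 : (co T u).2.1 = j + 1 := by
        have : (co T u).2.1 = 1 + j := e1
        omega
      have hF : F (j + 1) = Ent.nv K x es[j] := by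
        show (es[j]?).elim 0 (Ent.nv K x) = _
        rw [List.getElem?_eq_getElem hj]; rfl
      have heok := hE' es[j] (List.getElem_mem hj)
      simp only [Ent.ok, Bool.and_eq_true, Nat.ble_eq] at heok
      obtain ⟨⟨⟨g1, g2⟩, _⟩, _⟩ := heok
      obtain ⟨i, hi, hih⟩ := mem_allL hu
      have hiok := hI' i hi
      have hih' : u.1 ≤ 1073741823 := by
        simp only [Ins.ok, Bool.and_eq_true, Nat.ble_eq] at hiok
        rw [hih]
        exact hiok.1.1.2
      have h5 : nv K x (u.2.2.1 % 2) u.1 u.2.1 = Ent.nv K x es[j] := by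
        unfold Ent.nv
        refine nv_congr x ?_ (Nat.mod_lt _ (by norm_num)) (by omega) (by omega) (by omega)
        have : keyN (Nat.mod u.2.2.1 2) u.1 u.2.1 = es[j].key := e2.symm
        exact this
      have hG : G (pos (co T u)) = (-1) ^ u.2.2.2.2 * Ent.nv K x es[j] := by
        show (-1 : ℝ) ^ pos (co T u) * F (pos (co T u) / 2) = _
        rw [hp2, h0, hF, hsgn]
      rw [hG, h5]; ring
  have hsum := real_zero hx hN hK T is hI'
  rw [← hL, List.map_congr_left hval] at hsum
  have hsum2 : (A.map fun t => (t.1 : ℝ) * G (pos t)).sum = 0 := by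
    rw [hA, List.map_map]; exact hsum
  rw [sum_pos A P hpos G, hP, sum_range_two_mul] at hsum2
  have hk : ∀ k ∈ range (n + 1), ((cc A (2 * k) : ℝ) * G (2 * k) + (cc A (2 * k + 1) : ℝ) *
      G (2 * k + 1)) = ((cc A (2 * k) : ℝ) - cc A (2 * k + 1)) * F k := by
    intro k _
    have a1 : G (2 * k) = F k := by
      show (-1 : ℝ) ^ (2 * k) * F (2 * k / 2) = _
      rw [pow_mul, show 2 * k / 2 = k by omega]; norm_num
    have a2 : G (2 * k + 1) = - F k := by
      show (-1 : ℝ) ^ (2 * k + 1) * F ((2 * k + 1) / 2) = _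
      rw [pow_succ, pow_mul, show (2 * k + 1) / 2 = k by omega]; norm_num
    rw [a1, a2]; ring
  rw [Finset.sum_congr rfl hk, Finset.sum_range_succ'] at hsum2
  have hF0 : F 0 = 0 := rfl
  rw [hF0, mul_zero, add_zero] at hsum2
  have hk2 : ∀ k ∈ range n, ((cc A (2 * (k + 1)) : ℝ) - cc A (2 * (k + 1) + 1)) * F (k + 1)
      = (es[k]?).elim 0 fun e => ((e.cp : ℝ) - e.cn) * Ent.nv K x e := by
    intro k hk
    have hk' : k < es.length := by simpa using hk
    have h1 := hD2 (k + 1) (by simpa using hk')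
    rw [hdig _ (by omega), hdig _ (by omega)] at h1
    simp only [List.getElem_cons_succ] at h1
    have h2 : ((cc A (2 * (k + 1)) : ℝ) - cc A (2 * (k + 1) + 1)) = (es[k].cp : ℝ) - es[k].cn := by
      have := congrArg (fun n : ℕ => (n : ℝ)) h1
      push_cast at this
      linarith
    have hF : F (k + 1) = Ent.nv K x es[k] := by
      show (es[k]?).elim 0 (Ent.nv K x) = _
      rw [List.getElem?_eq_getElem hk']; rfl
    rw [h2, hF, List.getElem?_eq_getElem hk']
    rfl
  rw [Finset.sum_congr rfl hk2] at hsum2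
  have hfin : (es.map fun e => ((e.cp : ℝ) - e.cn) * Ent.nv K x e).sum = 0 := by
    rw [← hsum2, hn]
    clear * -
    induction es with
    | nil => simp
    | cons e es ih =>
      rw [List.map_cons, List.sum_cons, List.length_cons, Finset.sum_range_succ', ih]
      simp [add_comm]
  unfold HoldsG
  rw [List.map_map]
  have h6 : (2 * 6 ^ K : ℝ) ≠ 0 := by positivity
  have h7 : (2 * 6 ^ K : ℝ) * ((es.map ((fun t : ℤ × Bool × List ℤ => (t.1 : ℝ) *
      rv x t.2.1 (Mf K (fOf K t.2.2))) ∘ fun e => ((e.cp : ℤ) - e.cn, decide (e.pr = 1),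
        e.mat K))).sum) = 0 := by
    rw [← List.sum_map_mul_left, ← hfin]
    congr 1
    refine List.map_congr_left fun e he => ?_
    simp only [Function.comp]
    rw [Ent.nv_eq e (hE' e he)]
    push_cast
    ring
  exact (mul_eq_zero.1 h7).resolve_left h6

end Vale.Agent.P355.H182
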