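import Vale.Agent.P355.H41.F1.Wd

/-! Columns of records checked in several pieces (for lists of more than 1000 flags). -/

namespace Vale.Agent.P355.H182.Cw

open Finset Matrix Vale.Agent.P355 H147 H998.E H41.F1
open Vale.Agent.P355.H129 (force force_eq)

variable {c k l : ℕ}

/-- a piece of a column: the first `cnt` flags of `xs` with the images `IM`. -/
def colPW (c TT : ℕ) (cls mv : ℕ → ℕ) (rw mk kk kl W W' b : ℕ) (IM : List (ℕ × List ℕ))
    (cnt : ℕ) : List PF → List ℕ → Bool :=
  Nat.rec (motive := fun _ => List PF → List ℕ → Bool) (fun _ _ => true)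
    (fun _ ih xs Es => List.rec (motive := fun _ => Bool) false
      (fun x xs' _ => List.rec (motive := fun _ => Bool) false
        (fun E Es' _ => Bool.rec (motive := fun _ => Bool) false (ih xs' Es')
          (grpW c TT cls mv rw mk (Nat.add x.b b) kk kl x.F x.pt IM
            (Nat.land (Nat.shiftRight E W) W'))) Es) xs) cnt

theorem colPW_spec {c TT : ℕ} {cls mv : ℕ → ℕ} {w mk kk kl W W' b : ℕ}
    {IM : List (ℕ × List ℕ)} : ∀ {cnt : ℕ} {xs : List PF} {Es : List ℕ},
    colPW c TT cls mv w mk kk kl W W' b IM cnt xs Es = true →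
      cnt ≤ xs.length ∧ cnt ≤ Es.length ∧ ∀ i < cnt,
      grpW c TT cls mv w mk (Nat.add (xs.getD i pf0).b b) kk kl (xs.getD i pf0).F
        (xs.getD i pf0).pt IM (Nat.land (Nat.shiftRight (Es.getD i 0) W) W') = true
  | 0, xs, Es, _ => ⟨Nat.zero_le _, Nat.zero_le _, fun i hi => absurd hi (by simp)⟩
  | cnt + 1, [], Es, h => absurd h (by simp [colPW])
  | cnt + 1, x :: xs, [], h => absurd h (by simp [colPW])
  | cnt + 1, x :: xs, E :: Es, h => by
    have e1 : colPW c TT cls mv w mk kk kl W W' b IM (cnt + 1) (x :: xs) (E :: Es)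
        = Bool.rec (motive := fun _ => Bool) false
          (colPW c TT cls mv w mk kk kl W W' b IM cnt xs Es)
          (grpW c TT cls mv w mk (Nat.add x.b b) kk kl x.F x.pt IM
          (Nat.land (Nat.shiftRight E W) W')) := rfl
    rw [e1, brc] at h
    rcases h1 : grpW c TT cls mv w mk (Nat.add x.b b) kk kl x.F x.pt IM
          (Nat.land (Nat.shiftRight E W) W') with _ | _
    · rw [h1, cond_false] at h; exact absurd h (by simp)
    rw [h1, cond_true] at h
    obtain ⟨a1, a2, a3⟩ := colPW_spec h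
    refine ⟨by simpa using a1, by simpa using a2, ?_⟩
    intro i hi
    cases i with
    | zero => exact h1
    | succ i => exact a3 i (by omega)

theorem colRW_of {c TT : ℕ} {cls mv : ℕ → ℕ} {w mk kk kl W W' b : ℕ}
    {IM : List (ℕ × List ℕ)} : ∀ {xs : List PF} {Es : List ℕ}, xs.length ≤ Es.length →
    (∀ i < xs.length,
      grpW c TT cls mv w mk (Nat.add (xs.getD i pf0).b b) kk kl (xs.getD i pf0).F
        (xs.getD i pf0).pt IM (Nat.land (Nat.shiftRight (Es.getD i 0) W) W') = true) →
    colRW c TT cls mv w mk kk kl W W' b IM xs Es = true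
  | [], Es, _, _ => rfl
  | x :: xs, [], h, _ => absurd h (by simp)
  | x :: xs, E :: Es, h, h' => by
    have e1 : colRW c TT cls mv w mk kk kl W W' b IM (x :: xs) (E :: Es)
        = Bool.rec (motive := fun _ => Bool) false
          (colRW c TT cls mv w mk kk kl W W' b IM xs Es)
          (grpW c TT cls mv w mk (Nat.add x.b b) kk kl x.F x.pt IM
          (Nat.land (Nat.shiftRight E W) W')) := rfl
    have h1 : grpW c TT cls mv w mk (Nat.add x.b b) kk kl x.F x.pt IM
          (Nat.land (Nat.shiftRight E W) W') = true := h' 0 (by simp)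
    have h2 : colRW c TT cls mv w mk kk kl W W' b IM xs Es = true := by
      refine colRW_of (by simpa using h) ?_
      intro i hi
      exact h' (i + 1) (by simpa using hi)
    rw [e1, brc, h1, cond_true]
    exact h2

/-- the rows `s, …, s + cnt - 1` of the column `l`. -/
def rowsAtW (c TT : ℕ) (cls mv : ℕ → ℕ) (rw n kk kl : ℕ) (es : List GD) (XL : List PF)
    (EL : List ℕ) (l s cnt : ℕ) : Bool :=
  List.rec (motive := fun _ => Bool) false
    (fun y _ _ => imF kl y es fun IM =>
      force (Nat.mul (Nat.mul rw n) l) fun W =>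
      force (Nat.sub (Nat.pow 2 (Nat.mul rw n)) 1) fun W' =>
      force (Nat.sub (Nat.pow 2 rw) 1) fun mk => force y.b fun b =>
      colPW c TT cls mv rw mk kk kl W W' b IM cnt (drp s XL) (drp s EL)) (drp l XL)

theorem colsAtW_two {c TT : ℕ} {cls mv : ℕ → ℕ} {w n kk kl : ℕ} {es : List GD}
    {XL : List PF} {EL : List ℕ} {a c1 c2 : ℕ}
    (h1 : rowsAtW c TT cls mv w n kk kl es XL EL a a c1 = true)
    (h2 : rowsAtW c TT cls mv w n kk kl es XL EL a (a + c1) c2 = true)
    (hl : XL.length = a + c1 + c2) :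
    colsAtW c TT cls mv w n kk kl es XL EL a 1 = true := by
  unfold rowsAtW at h1 h2
  unfold colsAtW
  simp only [drp_eq] at h1 h2
  rw [drp_eq, drp_eq]
  rcases hx : XL.drop a with _ | ⟨y, xs⟩
  · rw [hx] at h1; exact absurd h1 (by simp)
  rw [hx] at h1 h2
  simp only [force_eq, imF_eq] at h1 h2
  obtain ⟨a1, a2, a3⟩ := colPW_spec h1
  obtain ⟨b1, b2, b3⟩ := colPW_spec h2
  have hxl : (y :: xs).length = c1 + c2 := by
    rw [← hx, List.length_drop]; omega
  rcases he : EL.drop a with _ | ⟨E, Es⟩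
  · exfalso
    have q1 : EL.length ≤ a := by
      have := congrArg List.length he
      rw [List.length_drop] at this
      simp at this
      omega
    rw [List.length_drop] at b2
    rw [List.length_drop] at a2
    simp at hxl
    omega
  rw [he] at a2 a3
  have hel : c1 + c2 ≤ (E :: Es).length := by
    rw [← he, List.length_drop]
    rw [List.length_drop] at b2
    rw [← he, List.length_drop] at a2
    simp at hxl
    omega
  have e1 : colsW c TT cls mv w n kk kl es 1 a (y :: xs) (E :: Es)
      = ((imF kl y es fun IM =>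
          force (Nat.mul (Nat.mul w n) a) fun W =>
          force (Nat.sub (Nat.pow 2 (Nat.mul w n)) 1) fun W' =>
          force (Nat.sub (Nat.pow 2 w) 1) fun mk => force y.b fun b =>
          colRW c TT cls mv w mk kk kl W W' b IM (y :: xs) (E :: Es)) && true) := rfl
  rw [e1, Bool.and_true]
  simp only [force_eq, imF_eq]
  refine colRW_of (by omega) ?_
  intro i hi
  rw [hxl] at hi
  rcases Nat.lt_or_ge i c1 with h | h
  · exact a3 i h
  · have h5 := b3 (i - c1) (by omega)
    rw [getD_drop, getD_drop] at h5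
    have e2 : a + c1 + (i - c1) = a + i := by omega
    rw [e2, ← getD_drop XL a i, ← getD_drop EL a i, hx, he] at h5
    exact h5

theorem ck2 {D : ED} {cls mv : ℕ → ℕ} (a c1 c2 : ℕ)
    (hl : D.XL.length = Nat.add (Nat.add a c1) c2)
    (h1 : rowsAtW c D.TT cls mv D.rw D.G.n k (Nat.add k l) D.G.gl D.XL D.EL a a c1 = true)
    (h2 : rowsAtW c D.TT cls mv D.rw D.G.n k (Nat.add k l) D.G.gl D.XL D.EL a (Nat.add a c1) c2
      = true) : CW c k l D cls mv a (Nat.add a 1) :=
  CW.ck a 1 (colsAtW_two h1 h2 hl)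

/-- the rows `s ≤ j < e` of the column `a` are checked. -/
def PW (c k l : ℕ) (D : ED) (cls mv : ℕ → ℕ) (a s e : ℕ) : Prop :=
  e ≤ D.XL.length ∧ e ≤ D.EL.length ∧ ∀ j, s ≤ j → j < e →
    grpW c D.TT cls mv D.rw (Nat.sub (Nat.pow 2 D.rw) 1)
      (Nat.add (D.XL.getD j pf0).b (D.XL.getD a pf0).b) k (Nat.add k l) (D.XL.getD j pf0).F
      (D.XL.getD j pf0).pt
      (D.G.gl.map fun e => (img e (D.XL.getD a pf0), eL e (D.XL.getD a pf0) (Nat.add k l)))
      (Nat.land (Nat.shiftRight (D.EL.getD j 0) (Nat.mul (Nat.mul D.rw D.G.n) a))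
        (Nat.sub (Nat.pow 2 (Nat.mul D.rw D.G.n)) 1)) = true

theorem PW.ck {D : ED} {cls mv : ℕ → ℕ} (a s n e : ℕ)
    (h : and (Nat.beq (Nat.add s (Nat.succ n)) e) (rowsAtW c D.TT cls mv D.rw D.G.n k (Nat.add k l)
      D.G.gl D.XL D.EL a s (Nat.succ n)) = true) : PW c k l D cls mv a s e := by
  rw [Bool.and_eq_true] at h
  have he : s + (n + 1) = e := Nat.eq_of_beq_eq_true h.1
  have h1 := h.2
  unfold rowsAtW at h1
  simp only [drp_eq] at h1
  rcases hx : D.XL.drop a with _ | ⟨y, xs⟩
  · rw [hx] at h1; exact absurd h1 (by simp)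
  rw [hx] at h1
  simp only [force_eq, imF_eq] at h1
  obtain ⟨a1, a2, a3⟩ := colPW_spec h1
  have hy : D.XL.getD a pf0 = y := by
    have := getD_drop D.XL a 0 pf0
    rw [hx, Nat.add_zero] at this
    rw [← this]; rfl
  rw [List.length_drop] at a1 a2
  refine ⟨by omega, by omega, ?_⟩
  intro j hj1 hj2
  have h5 := a3 (j - s) (by omega)
  rw [getD_drop, getD_drop] at h5
  have e2 : s + (j - s) = j := by omega
  rw [e2] at h5
  rw [hy]
  exact h5

theorem PW.trans {D : ED} {cls mv : ℕ → ℕ} {a s e f : ℕ} (h : PW c k l D cls mv a s e)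
    (h' : PW c k l D cls mv a e f) : PW c k l D cls mv a s f := by
  refine ⟨h'.1, h'.2.1, ?_⟩
  intro j h1 h2
  rcases Nat.lt_or_ge j e with h3 | h3
  · exact h.2.2 j h1 h3
  · exact h'.2.2 j h3 h2

/-- a column from its pieces. -/
theorem PW.cw {D : ED} {cls mv : ℕ → ℕ} {a e : ℕ} (h : PW c k l D cls mv a a e)
    (hl : D.XL.length = e) (ha : Nat.blt a e = true) : CW c k l D cls mv a (Nat.add a 1) := by
  rw [Nat.blt_eq] at ha
  refine CW.ck a 1 ?_
  obtain ⟨b1, b2, b3⟩ := h
  unfold colsAtW
  rw [drp_eq, drp_eq]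
  rcases hx : D.XL.drop a with _ | ⟨y, xs⟩
  · exfalso
    have := congrArg List.length hx
    rw [List.length_drop] at this
    simp at this
    omega
  rcases hE : D.EL.drop a with _ | ⟨E, Es⟩
  · exfalso
    have := congrArg List.length hE
    rw [List.length_drop] at this
    simp at this
    omega
  have hy : D.XL.getD a pf0 = y := by
    have := getD_drop D.XL a 0 pf0
    rw [hx, Nat.add_zero] at this
    rw [← this]; rfl
  have e1 : colsW c D.TT cls mv D.rw D.G.n k (Nat.add k l) D.G.gl 1 a (y :: xs) (E :: Es)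
      = ((imF (Nat.add k l) y D.G.gl fun IM =>
          force (Nat.mul (Nat.mul D.rw D.G.n) a) fun W =>
          force (Nat.sub (Nat.pow 2 (Nat.mul D.rw D.G.n)) 1) fun W' =>
          force (Nat.sub (Nat.pow 2 D.rw) 1) fun mk => force y.b fun b =>
          colRW c D.TT cls mv D.rw mk k (Nat.add k l) W W' b IM (y :: xs) (E :: Es)) && true) := rfl
  rw [e1, Bool.and_true]
  simp only [force_eq, imF_eq]
  have hlx : (y :: xs).length = e - a := by rw [← hx, List.length_drop]; omega
  have hlE : e - a ≤ (E :: Es).length := by rw [← hE, List.length_drop]; omega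
  refine colRW_of (by omega) ?_
  intro i hi
  have h5 := b3 (a + i) (by omega) (by omega)
  rw [← getD_drop D.XL a i, ← getD_drop D.EL a i, hx, hE, hy] at h5
  exact h5

end Vale.Agent.P355.H182.Cw
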