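import Vale.Agent.P355.H182.Chk

/-! Digits of packed sums. -/

namespace Vale.Agent.P355.H182

open Finset

/-- position of a contribution. -/
def pos (t : ℕ × ℕ × ℕ) : ℕ := 2 * t.2.1 + t.2.2 % 2

/-- total at a position. -/
def cc (A : List (ℕ × ℕ × ℕ)) (p : ℕ) : ℕ := (A.map fun t => if pos t = p then t.1 else 0).sum

/-- total. -/
def SS (A : List (ℕ × ℕ × ℕ)) : ℕ := (A.map fun t => t.1).sum

theorem cc_le (A : List (ℕ × ℕ × ℕ)) (p : ℕ) : cc A p ≤ SS A := by
  unfold cc SS
  refine List.sum_le_sum fun t _ => ?_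
  split_ifs <;> omega

theorem le_cc {A : List (ℕ × ℕ × ℕ)} {t : ℕ × ℕ × ℕ} (h : t ∈ A) : t.1 ≤ cc A (pos t) := by
  induction A with
  | nil => simp at h
  | cons u A ih =>
    unfold cc at ih ⊢
    simp only [List.map_cons, List.sum_cons]
    rcases List.mem_cons.1 h with rfl | h
    · simp
    · exact (ih h).trans (Nat.le_add_left _ _)

/-- the packed sum. -/
theorem pack_eq (w P : ℕ) (A : List (ℕ × ℕ × ℕ)) (hA : ∀ t ∈ A, pos t < P) :
    (A.map fun t => ctr w (w * P) t.1 t.2.1 t.2.2).sum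
      = ∑ p ∈ range P, cc A p * (2 ^ w) ^ p + SS A * (2 ^ w) ^ P := by
  induction A with
  | nil => simp [cc, SS]
  | cons t A ih =>
    have h1 := ih fun t ht => hA t (List.mem_cons_of_mem _ ht)
    have h2 : pos t < P := hA t (by simp)
    have e1 : ∀ p, cc (t :: A) p = (if pos t = p then t.1 else 0) + cc A p := fun p => by simp [cc]
    have e2 : SS (t :: A) = t.1 + SS A := by simp [SS]
    rw [List.map_cons, List.sum_cons, h1, e2]
    simp only [e1, add_mul, Finset.sum_add_distrib, ite_mul, zero_mul]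
    rw [Finset.sum_ite_eq, if_pos (by simpa using h2)]
    have e3 : ctr w (w * P) t.1 t.2.1 t.2.2 = t.1 * (2 ^ w) ^ pos t + t.1 * (2 ^ w) ^ P := by
      unfold ctr pos
      simp only [Nat.add_eq, Nat.mul_eq]
      have a1 : ∀ a b, Nat.shiftLeft a b = a * 2 ^ b := fun a b => Nat.shiftLeft_eq a b
      have a2 : Nat.mod t.2.2 2 = t.2.2 % 2 := rfl
      rw [a1, a1, a2, ← pow_mul, ← pow_mul]
    rw [e3]; ring

theorem digit_eq (B : ℕ) (c : ℕ → ℕ) (S P : ℕ) (hc : ∀ p, c p < B) (p : ℕ)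
    (hp : p < P) : (∑ q ∈ range P, c q * B ^ q + S * B ^ P) / B ^ p % B = c p := by
  have hB : 0 < B := lt_of_le_of_lt (Nat.zero_le _) (hc 0)
  induction p generalizing c P with
  | zero =>
    obtain ⟨P, rfl⟩ : ∃ P', P = P' + 1 := ⟨P - 1, by omega⟩
    rw [Finset.sum_range_succ']
    have : (∑ k ∈ range P, c (k + 1) * B ^ (k + 1) + c 0 * B ^ 0 + S * B ^ (P + 1))
        = c 0 + B * (∑ k ∈ range P, c (k + 1) * B ^ k + S * B ^ P) := by
      rw [mul_add, Finset.mul_sum]
      have e : ∀ k, c (k + 1) * B ^ (k + 1) = B * (c (k + 1) * B ^ k) := fun k => by ring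
      simp only [e, pow_zero, mul_one]
      ring
    rw [this, pow_zero, Nat.div_one, Nat.add_mul_mod_self_left, Nat.mod_eq_of_lt (hc 0)]
  | succ p ih =>
    obtain ⟨P, rfl⟩ : ∃ P', P = P' + 1 := ⟨P - 1, by omega⟩
    rw [Finset.sum_range_succ']
    have : (∑ k ∈ range P, c (k + 1) * B ^ (k + 1) + c 0 * B ^ 0 + S * B ^ (P + 1))
        = c 0 + B * (∑ k ∈ range P, c (k + 1) * B ^ k + S * B ^ P) := by
      rw [mul_add, Finset.mul_sum]
      have e : ∀ k, c (k + 1) * B ^ (k + 1) = B * (c (k + 1) * B ^ k) := fun k => by ring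
      simp only [e, pow_zero, mul_one]
      ring
    rw [this, pow_succ', ← Nat.div_div_eq_div_mul, Nat.add_mul_div_left _ _ hB,
      Nat.div_eq_of_lt (hc 0), zero_add]
    exact ih (fun q => c (q + 1)) P (fun q => hc _) (by omega)

theorem top_le (B : ℕ) (hB : 0 < B) (R S P : ℕ) : S ≤ (R + S * B ^ P) / B ^ P := by
  rw [Nat.add_mul_div_right _ _ (pow_pos hB P)]
  exact Nat.le_add_left _ _

/-- digit. -/
def dig (B N p : ℕ) : ℕ := N / B ^ p % B

theorem chkD_spec (w : ℕ) (es : List Ent) (N : ℕ) (h : chkD w (2 ^ w) es N = true) :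
    N / (2 ^ w) ^ (2 * es.length) < 2 ^ w ∧ ∀ k, (hk : k < es.length) →
      dig (2 ^ w) N (2 * k) + es[k].cn = dig (2 ^ w) N (2 * k + 1) + es[k].cp := by
  induction es generalizing N with
  | nil =>
    simp only [chkD, Nat.ble_eq, Nat.succ_le_iff] at h
    simpa using h
  | cons e es ih =>
    simp only [chkD, Bool.and_eq_true, Nat.beq_eq] at h
    obtain ⟨h1, h2⟩ := h
    have a1 : Nat.shiftRight N (Nat.mul 2 w) = N / (2 ^ w) ^ 2 := by
      have : Nat.shiftRight N (Nat.mul 2 w) = N >>> (2 * w) := rfl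
      rw [this, Nat.shiftRight_eq_div_pow, mul_comm 2 w, pow_mul]
    have a2 : Nat.shiftRight N w = N / 2 ^ w := Nat.shiftRight_eq_div_pow N w
    rw [a1] at h2
    obtain ⟨h3, h4⟩ := ih _ h2
    refine ⟨?_, ?_⟩
    · rw [Nat.div_div_eq_div_mul, ← pow_add] at h3
      simpa [List.length_cons, mul_add, add_comm] using h3
    · intro k hk
      rcases k with _ | k
      · have e1 : dig (2 ^ w) N 0 = N % 2 ^ w := by simp [dig]
        have e2 : dig (2 ^ w) N 1 = N / 2 ^ w % 2 ^ w := by simp [dig]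
        simp only [mul_zero, zero_add, List.getElem_cons_zero, e1, e2]
        rw [a2] at h1
        exact h1
      · have h5 := h4 k (by simpa using hk)
        have e3 : ∀ p, dig (2 ^ w) (N / (2 ^ w) ^ 2) p = dig (2 ^ w) N (p + 2) := by
          intro p
          unfold dig
          rw [Nat.div_div_eq_div_mul, ← pow_add, add_comm 2 p]
        rw [e3, e3] at h5
        simp only [List.getElem_cons_succ]
        rw [show 2 * (k + 1) = 2 * k + 2 by ring, show 2 * k + 2 + 1 = 2 * k + 1 + 2 by ring]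
        exact h5

end Vale.Agent.P355.H182
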