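import Vale.Agent.P355.H182.Chunk

/-! Fast forms with explicit recursors. -/

namespace Vale.Agent.P355.H182

open Finset Vale.Agent.P355 Vale.Agent.P355.H138

noncomputable section

/-- choice by a recursor. -/
def cd {α : Type} (b : Bool) (x y : α) : α := Bool.rec (motive := fun _ => α) y x b

theorem cd_eq {α : Type} (b : Bool) (x y : α) : cd b x y = cond b x y := by cases b <;> rfl

/-- power of `√6` of a trivial column code, by a decision tree. -/
def trF (mk : Bool) (c : ℕ) : ℕ :=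
  cd (Nat.ble c 16777216)
    (cd (Nat.ble c 4096)
      (cd (Nat.beq c 64) 1 (cd (Nat.beq c 4096) 1 (cd (Nat.beq c 0) 2
        (cd mk (cd (Nat.beq c 1) 1 0) 0))))
      (cd (Nat.beq c 262144) 1 (cd (Nat.beq c 16777216) 1 0)))
    (cd (Nat.ble 1073479680 c)
      (cd (Nat.beq c 1073741760) 1 (cd (Nat.beq c 1073737728) 1 (cd (Nat.beq c 1073479680) 1
        (cd mk (cd (Nat.beq c 1073741823) 1 0) 0))))
      (cd (Nat.beq c 1056964608) 1 0))

theorem trF_eq (mk : Bool) (c : ℕ) : trF mk c = trN mk c := by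
  have hb : ∀ a, c ≠ a → Nat.beq c a = false := fun a h => by rwa [← Bool.not_eq_true, Nat.beq_eq]
  by_cases h0 : c = 0
  · subst h0; cases mk <;> rfl
  by_cases h1 : c = 64
  · subst h1; cases mk <;> rfl
  by_cases h2 : c = 4096
  · subst h2; cases mk <;> rfl
  by_cases h3 : c = 262144
  · subst h3; cases mk <;> rfl
  by_cases h4 : c = 16777216
  · subst h4; cases mk <;> rfl
  by_cases h5 : c = 1073741760
  · subst h5; cases mk <;> rfl
  by_cases h6 : c = 1073737728
  · subst h6; cases mk <;> rfl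
  by_cases h7 : c = 1073479680
  · subst h7; cases mk <;> rfl
  by_cases h8 : c = 1056964608
  · subst h8; cases mk <;> rfl
  by_cases h9 : c = 1
  · subst h9; cases mk <;> rfl
  by_cases h10 : c = 1073741823
  · subst h10; cases mk <;> rfl
  unfold trF trN
  simp only [cd_eq, hb _ h0, hb _ h1, hb _ h2, hb _ h3, hb _ h4, hb _ h5, hb _ h6, hb _ h7,
    hb _ h8, hb _ h9, hb _ h10, cond_false, Bool.cond_self]

/-- sum. -/
def sumToR (t : ℕ → ℕ) (n : ℕ) : ℕ :=
  Nat.rec (motive := fun _ => ℕ) (t 0) (fun n ih => Nat.add (t (Nat.succ n)) ih) n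

theorem sumToR_eq (t : ℕ → ℕ) (n : ℕ) : sumToR t n = sumTo Nat.add t n := by
  induction n with
  | zero => rfl
  | succ n ih =>
    have e : sumToR t (n + 1) = Nat.add (t (n + 1)) (sumToR t n) := rfl
    rw [e, ih]; rfl

/-- choice of the block. -/
def selR (f : ℕ → ℕ → ℕ → List (ℕ × ℕ) → ℕ) (D : List (ℕ × ℕ)) :
    ℕ → ℕ → ℕ → List (ℕ × ℕ) → ℕ :=
  List.rec (motive := fun _ => ℕ → ℕ → ℕ → List (ℕ × ℕ) → ℕ) f
    (fun g _ ih cur k c rest => sumToR (fun j => ih (cmN cur j g.1) (Nat.add k j)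
      (Nat.mul c (chN g.2 j)) (cd (Nat.beq g.2 j) rest ((g.1, Nat.sub g.2 j) :: rest))) g.2) D

theorem selR_eq (f : ℕ → ℕ → ℕ → List (ℕ × ℕ) → ℕ) (D : List (ℕ × ℕ)) (cur k c : ℕ)
    (rest : List (ℕ × ℕ)) : selR f D cur k c rest = sel cmN chN Nat.add f D cur k c rest := by
  induction D generalizing cur k c rest with
  | nil => rfl
  | cons g D ih =>
    obtain ⟨v, m⟩ := g
    have e : selR f ((v, m) :: D) cur k c rest
        = sumToR (fun j => selR f D (cmN cur j v) (Nat.add k j)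
      (Nat.mul c (chN m j)) (cd (Nat.beq m j) rest ((v, Nat.sub m j) :: rest))) m := rfl
    rw [e, sumToR_eq]
    simp only [ih, cd_eq, sel]

/-- insertion. -/
def insR (c : ℕ) (l : List ℕ) : List ℕ :=
  List.rec (motive := fun _ => List ℕ) [c]
    (fun d l ih => cd (Nat.ble c d) (c :: d :: l) (d :: ih)) l

theorem insR_eq (c : ℕ) (l : List ℕ) : insR c l = insN c l := by
  induction l with
  | nil => rfl
  | cons d l ih =>
    have e : insR c (d :: l) = cd (Nat.ble c d) (c :: d :: l) (d :: insR c l) := rfl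
    rw [e, ih, cd_eq]; rfl

/-- expansion. -/
def runR (mk : Bool) (lf : List ℕ → ℕ → ℕ → ℕ → ℕ) (n : ℕ) :
    List (ℕ × ℕ) → List ℕ → ℕ → ℕ → ℕ → ℕ :=
  Nat.rec (motive := fun _ => List (ℕ × ℕ) → List ℕ → ℕ → ℕ → ℕ → ℕ)
    (fun _ K e mg s => lf K e mg s)
    (fun _ ih G K e mg s => List.rec (motive := fun _ => ℕ) (lf K e mg s)
      (fun g D _ => selR (fun cur k c rest => ih rest
          (cd (Nat.beq (trF mk cur) 0) (insR cur K) K)
          (Nat.add e (trF mk cur)) (Nat.mul mg (Nat.mul c (facN k))) (Nat.add s k))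
        (cd (Nat.beq g.2 1) D ((g.1, Nat.sub g.2 1) :: D)) g.1 0 1 []) G) n

theorem runR_eq (mk : Bool) (lf : List ℕ → ℕ → ℕ → ℕ → ℕ) (n : ℕ) (G : List (ℕ × ℕ))
    (K : List ℕ) (e mg s : ℕ) :
    runR mk lf n G K e mg s = run' cmN chN facN Nat.add (trN mk) insN lf n G K e mg s := by
  induction n generalizing G K e mg s with
  | zero => rfl
  | succ n ih =>
    rcases G with _ | ⟨⟨v, m⟩, D⟩
    · rfl
    · have e1 : runR mk lf (n + 1) ((v, m) :: D) K e mg s
          = selR (fun cur k c rest => runR mk lf n rest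
          (cd (Nat.beq (trF mk cur) 0) (insR cur K) K)
          (Nat.add e (trF mk cur)) (Nat.mul mg (Nat.mul c (facN k))) (Nat.add s k))
        (cd (Nat.beq m 1) D ((v, Nat.sub m 1) :: D)) v 0 1 [] := rfl
      rw [e1, selR_eq]
      simp only [ih, cd_eq, trF_eq, insR_eq, run']

/-- search. -/
def findR (key : ℕ) (T : KT) : ℕ :=
  KT.rec (motive := fun _ => ℕ) 0
    (fun _ k id _ fl fr => cd (Nat.beq key k) id (cd (Nat.ble key k) fl fr)) T

theorem findR_eq (key : ℕ) (T : KT) : findR key T = T.find key := by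
  induction T with
  | nil => rfl
  | node l k id r ihl ihr =>
    have e : findR key (.node l k id r) = cd (Nat.beq key k) id
      (cd (Nat.ble key k) (findR key l) (findR key r)) := rfl
    rw [e, cd_eq, cd_eq, ihl, ihr]; rfl

/-- packed list. -/
def pkR (l : List ℕ) : ℕ :=
  List.rec (motive := fun _ => ℕ) 0
    (fun c _ ih => Nat.add (Nat.add (Nat.mod c 1073741824) 1) (Nat.mul 2147483648 ih)) l

theorem pkR_eq (l : List ℕ) : pkR l = pk l := by
  induction l with
  | nil => rfl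
  | cons c l ih =>
    have e : pkR (c :: l) = Nat.add (Nat.add (Nat.mod c 1073741824) 1)
      (Nat.mul 2147483648 (pkR l)) := rfl
    rw [e, ih]; rfl

/-- length. -/
def lenR (l : List ℕ) : ℕ := List.rec (motive := fun _ => ℕ) 0 (fun _ _ ih => Nat.succ ih) l

theorem lenR_eq (l : List ℕ) : lenR l = lenN l := by
  induction l with
  | nil => rfl
  | cons c l ih =>
    have e : lenR (c :: l) = Nat.succ (lenR l) := rfl
    rw [e, ih]; rfl

/-- leaf. -/
def lfR (T : KT) (w top h : ℕ) (l : List ℕ) (e mg s : ℕ) : ℕ :=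
  ctr w top (Nat.mul mg (Nat.pow 6 (Nat.add (Nat.div e 2) (lenR l))))
    (findR (Nat.add (Nat.mod e 2) (Nat.mul 2 (Nat.add h (Nat.mul 1073741824 (pkR l))))) T) s

theorem lfR_eq (T : KT) (w top h : ℕ) : lfR T w top h = lfN T w top h := by
  funext l e mg s
  unfold lfR lfN
  rw [findR_eq, pkR_eq, lenR_eq, p6_eq]
  rfl

/-- value. -/
def valR (mk : Bool) (T : KT) (w top : ℕ) (i : Ins) : ℕ :=
  runR mk (lfR T w top i.h) 8 (i.G.map fun g => (toE g.1, g.2)) (i.M.map toE) i.g i.lam i.s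

/-- sum. -/
def sumF (mk : Bool) (T : KT) (w top : ℕ) (l : List Ins) : ℕ :=
  List.rec (motive := fun _ => ℕ) 0 (fun i _ ih => Nat.add (valR mk T w top i) ih) l

theorem sumF_eq (mk : Bool) (T : KT) (w top : ℕ) (l : List Ins) :
    sumF mk T w top l = sumI mk T w top l := by
  induction l with
  | nil => rfl
  | cons i l ih =>
    have e : sumF mk T w top (i :: l) = Nat.add (valR mk T w top i) (sumF mk T w top l) := rfl
    have e2 : valR mk T w top i = i.val mk T w top := by
      unfold valR Ins.val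
      rw [runR_eq, lfR_eq]
    rw [e, ih, e2]; rfl

end

/-- **The chunk theorem**, fast form. -/
theorem chunkF {mk : Bool} {K : ℕ} {x : Fin 7 → Fin 7 → ℂ} (hx : Good mk x) (hN : N7x x) {w : ℕ}
    {T : KT} {es : List Ent} {is : List Ins} {N : ℕ} (hc : chkC K w T es is N = true)
    (hs : Nat.beq (sumF mk T w (w * (2 * (es.length + 1))) is) N = true) :
    HoldsG K x (es.map fun e => ((e.cp : ℤ) - e.cn, decide (e.pr = 1), e.mat K)) := by
  rw [sumF_eq] at hs
  exact chunk hx hN hc hs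

end Vale.Agent.P355.H182
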