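import Vale.Agent.P355.H182.Fst
import Vale.Agent.P355.H129.Conv

/-! Chunks with a global table of graphs and a local tree of classes. -/

namespace Vale.Agent.P355.H182

open Finset Vale.Agent.P355 Vale.Agent.P355.H138
open Vale.Agent.P355.H129 (force force_eq NRep RelPack)

/-- search tree: key and payload `16 (class + 1) + exponent`. -/
inductive GT where
  | nil : GT
  | node (l : GT) (k q : ℕ) (r : GT) : GT

/-- difference tree of classes. -/
inductive DT where
  | tip (p : ℕ) : DT
  | bin (l : DT) (off : ℕ) (r : DT) : DT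

noncomputable section

/-- payload of a key, `0` if absent. -/
def findG (key : ℕ) (T : GT) : ℕ :=
  GT.rec (motive := fun _ => ℕ) 0
    (fun _ k q _ fl fr => cd (Nat.beq key k) q (cd (Nat.ble key k) fl fr)) T

/-- position of a class, `0` if absent. -/
def findD (D : DT) : ℕ → ℕ :=
  DT.rec (motive := fun _ => ℕ → ℕ) (fun p t => cd (Nat.beq t 0) p 0)
    (fun _ off _ fl fr t => cd (Nat.ble off t) (fr (Nat.sub t off)) (fl t)) D

/-- positions and classes. -/
def flat : DT → ℕ → List (ℕ × ℕ)
  | .tip p, b => [(p, b)]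
  | .bin l off r, b => flat l b ++ flat r (b + off)

/-- check of the positions: the next position. -/
def posD (D : DT) : ℕ → ℕ :=
  DT.rec (motive := fun _ => ℕ → ℕ) (fun p n => cd (Nat.beq p n) (Nat.succ n) 0)
    (fun _ _ _ fl fr n => force (fl n) fun m => cd (Nat.beq m 0) 0 (fr m)) D

/-- packed sum over the classes. -/
def sc (W : ℕ) (f : ℕ → ℕ) (D : DT) : ℕ :=
  DT.rec (motive := fun _ => ℕ) f
    (fun _ off _ sl sr => Nat.add sl (Nat.shiftLeft sr (Nat.mul W off))) D

/-- leaf. -/
def lfG (T : GT) (D : DT) (w top h : ℕ) (l : List ℕ) (e mg s : ℕ) : ℕ :=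
  force (Nat.add (Nat.mod e 2) (Nat.mul 2 (Nat.add h (Nat.mul 1073741824 (pkR l))))) fun k =>
  force (findG k T) fun q =>
  ctr w top (Nat.mul mg (Nat.pow 6 (Nat.add (Nat.div e 2) (Nat.mod q 16))))
    (cd (Nat.beq q 0) 0 (findD D (Nat.sub (Nat.div q 16) 1))) s

/-- value of a relation. -/
def valG (mk : Bool) (T : GT) (D : DT) (w top : ℕ) (i : Ins) : ℕ :=
  runR mk (lfG T D w top i.h) 8 (i.G.map fun g => (toE g.1, g.2)) (i.M.map toE) i.g i.lam i.s

/-- sum over the relations. -/
def sumG (mk : Bool) (T : GT) (D : DT) (w top : ℕ) (l : List Ins) : ℕ :=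
  List.rec (motive := fun _ => ℕ) 0 (fun i _ ih => Nat.add (valG mk T D w top i) ih) l

/-- digit of a packed sum. -/
def dgw (w N p : ℕ) : ℕ := Nat.mod (Nat.shiftRight N (Nat.mul w p)) (Nat.shiftLeft 1 w)

/-- check of a chunk: `n` classes. -/
def chkG (K w n : ℕ) (D : DT) (is : List Ins) (N : ℕ) : Bool :=
  Nat.ble 4 K && allI K is && Nat.beq (posD D 1) (Nat.succ n) &&
  Nat.ble (Nat.succ (Nat.shiftRight N (Nat.mul w (Nat.mul 2 (Nat.succ n))))) (Nat.shiftLeft 1 w) &&
  Nat.beq (Nat.mod N (Nat.shiftLeft 1 (Nat.mul 2 w))) 0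

/-! ### The trees -/

theorem flat_ne (D : DT) (b : ℕ) : flat D b ≠ [] := by
  induction D generalizing b with
  | tip p => simp [flat]
  | bin l off r ihl ihr =>
    intro h
    simp only [flat, List.append_eq_nil_iff] at h
    exact ihl b h.1

theorem flat_shift (D : DT) (b : ℕ) : flat D b = (flat D 0).map fun u => (u.1, u.2 + b) := by
  induction D generalizing b with
  | tip p => simp [flat]
  | bin l off r ihl ihr =>
    simp only [flat, List.map_append]
    rw [ihl b, ihr (b + off), ihr (0 + off), List.map_map]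
    congr 1
    refine List.map_congr_left fun u _ => ?_
    simp only [Function.comp, Prod.mk.injEq, true_and]
    omega

theorem findD_mem (D : DT) (t : ℕ) : findD D t = 0 ∨ (findD D t, t) ∈ flat D 0 := by
  induction D generalizing t with
  | tip p =>
    have e : findD (.tip p) t = cd (Nat.beq t 0) p 0 := rfl
    rw [e, cd_eq]
    rcases h : Nat.beq t 0 with _ | _
    · left; rfl
    · right
      have : t = 0 := Nat.eq_of_beq_eq_true h
      subst this
      simp [flat]
  | bin l off r ihl ihr =>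
    have e : findD (.bin l off r) t
        = cd (Nat.ble off t) (findD r (Nat.sub t off)) (findD l t) := rfl
    rw [e, cd_eq]
    rcases h : Nat.ble off t with _ | _
    · simp only [cond_false]
      rcases ihl t with h1 | h1
      · exact Or.inl h1
      · right; simp [flat, h1]
    · simp only [cond_true]
      have h2 : off ≤ t := Nat.le_of_ble_eq_true h
      rcases ihr (Nat.sub t off) with h1 | h1
      · exact Or.inl h1
      · right
        have h3 : (findD r (Nat.sub t off), t) ∈ flat r off := by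
          rw [flat_shift]
          refine List.mem_map.2 ⟨_, h1, ?_⟩
          simp only [Prod.mk.injEq, true_and]
          show t - off + off = t
          omega
        have e2 : flat (.bin l off r) 0 = flat l 0 ++ flat r (0 + off) := rfl
        rw [e2, zero_add]
        exact List.mem_append_right _ h3

theorem posD_spec (D : DT) (n b : ℕ) (h : posD D n ≠ 0) :
    posD D n = n + (flat D b).length ∧
    ∀ k (hk : k < (flat D b).length), (flat D b)[k].1 = n + k := by
  induction D generalizing n b with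
  | tip p =>
    have e : posD (.tip p) n = cd (Nat.beq p n) (Nat.succ n) 0 := rfl
    rw [e, cd_eq] at h ⊢
    rcases h1 : Nat.beq p n with _ | _
    · rw [h1] at h; simp at h
    · have : p = n := Nat.eq_of_beq_eq_true h1
      subst this
      refine ⟨rfl, ?_⟩
      intro k hk
      have : k = 0 := by simpa [flat] using hk
      subst this
      simp [flat]
  | bin l off r ihl ihr =>
    have e : posD (.bin l off r) n = force (posD l n) fun m => cd (Nat.beq m 0) 0 (posD r m) := rfl
    rw [e, force_eq, cd_eq] at h ⊢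
    rcases h1 : Nat.beq (posD l n) 0 with _ | _
    · rw [h1] at h
      simp only [cond_false] at h ⊢
      have h2 : posD l n ≠ 0 := by
        intro h3; rw [h3] at h1; simp at h1
      obtain ⟨a1, a2⟩ := ihl n b h2
      obtain ⟨b1, b2⟩ := ihr (posD l n) (b + off) h
      have e2 : flat (.bin l off r) b = flat l b ++ flat r (b + off) := rfl
      refine ⟨?_, ?_⟩
      · rw [b1, a1, e2, List.length_append]; omega
      · intro k hk
        simp only [e2]
        rw [e2, List.length_append] at hk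
        by_cases hkl : k < (flat l b).length
        · rw [List.getElem_append_left hkl]; exact a2 k hkl
        · rw [List.getElem_append_right (by omega), b2 _ (by omega), a1]; omega
    · rw [h1] at h; simp at h

theorem sc_flat (W : ℕ) (f : ℕ → ℕ) (D : DT) (b : ℕ) :
    sc W f D * 2 ^ (W * b) = ((flat D b).map fun u => f u.1 * 2 ^ (W * u.2)).sum := by
  induction D generalizing b with
  | tip p => simp [flat, sc]
  | bin l off r ihl ihr =>
    have e : sc W f (.bin l off r)
        = Nat.add (sc W f l) (Nat.shiftLeft (sc W f r) (Nat.mul W off)) := rfl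
    have e1 : Nat.shiftLeft (sc W f r) (Nat.mul W off) = sc W f r * 2 ^ (W * off) :=
      Nat.shiftLeft_eq _ _
    have e2 : flat (.bin l off r) b = flat l b ++ flat r (b + off) := rfl
    rw [e, e1, e2, List.map_append, List.sum_append, ← ihl, ← ihr]
    simp only [Nat.add_eq]
    rw [mul_add, pow_add]
    ring

end

/-! ### Values of keys -/

/-- unnormalised value of a graph. -/
noncomputable def uv (K : ℕ) (x : Fin 7 → Fin 7 → ℂ) (pr h : ℕ) (l : List ℕ) : ℝ :=
  r6 ^ pr * gR K x h l

theorem uv_congr {K : ℕ} (x : Fin 7 → Fin 7 → ℂ) {pr pr' h h' : ℕ} {l l' : List ℕ}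
    (hk : keyN pr h l = keyN pr' h' l')
    (h1 : pr < 2) (h2 : pr' < 2) (h3 : h < 1073741824) (h4 : h' < 1073741824) :
    uv K x pr h l = uv K x pr' h' l' := by
  obtain ⟨rfl, rfl, h5⟩ := keyN_inj hk h1 h2 h3 h4
  have h6 := pk_inj h5
  unfold uv gR gN
  simp only [pvN_congr _ h6]

theorem uv_nv (K : ℕ) (x : Fin 7 → Fin 7 → ℂ) (pr h : ℕ) (l : List ℕ) :
    6 ^ l.length * nv K x pr h l = uv K x pr h l := by
  unfold uv nv
  have h9 : (6 : ℝ) ^ l.length ≠ 0 := pow_ne_zero _ (by norm_num)
  field_simp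

open Classical in
/-- value of a key. -/
noncomputable def Vk (K : ℕ) (x : Fin 7 → Fin 7 → ℂ) (k : ℕ) : ℝ :=
  if h : ∃ t : ℕ × ℕ × List ℕ, t.1 < 2 ∧ t.2.1 < 1073741824 ∧ keyN t.1 t.2.1 t.2.2 = k then
    uv K x h.choose.1 h.choose.2.1 h.choose.2.2 else 0

theorem Vk_eq (K : ℕ) (x : Fin 7 → Fin 7 → ℂ) {pr h : ℕ} (l : List ℕ) (h1 : pr < 2)
    (h2 : h < 1073741824) : Vk K x (keyN pr h l) = uv K x pr h l := by
  have hex : ∃ t : ℕ × ℕ × List ℕ, t.1 < 2 ∧ t.2.1 < 1073741824 ∧
      keyN t.1 t.2.1 t.2.2 = keyN pr h l := ⟨(pr, h, l), h1, h2, rfl⟩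
  unfold Vk
  rw [dif_pos hex]
  obtain ⟨a1, a2, a3⟩ := hex.choose_spec
  exact uv_congr x a3 a1 h1 a2 h2

/-- the table is correct: `V(key) = 6 ^ (q mod 16) (2 6 ^ K) val (q / 16 - 1)`. -/
def TOK (K : ℕ) (x : Fin 7 → Fin 7 → ℂ) (val : ℕ → ℝ) (T : GT) : Prop :=
  ∀ k, findG k T ≠ 0 →
    Vk K x k = 6 ^ (findG k T % 16) * (2 * 6 ^ K) * val (findG k T / 16 - 1)

/-- the node `(k, q)` is correct. -/
def NOK (K : ℕ) (x : Fin 7 → Fin 7 → ℂ) (val : ℕ → ℝ) (k q : ℕ) : Prop :=
  Vk K x k = 6 ^ (q % 16) * (2 * 6 ^ K) * val (q / 16 - 1)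

/-- all nodes are correct. -/
def GT.Ok (K : ℕ) (x : Fin 7 → Fin 7 → ℂ) (val : ℕ → ℝ) : GT → Prop
  | .nil => True
  | .node l k q r => l.Ok K x val ∧ NOK K x val k q ∧ r.Ok K x val

theorem TOK_of {K : ℕ} {x : Fin 7 → Fin 7 → ℂ} {val : ℕ → ℝ} {T : GT}
    (h : T.Ok K x val) : TOK K x val T := by
  induction T with
  | nil => intro k hk; exact absurd rfl hk
  | node l k0 q r ihl ihr =>
    obtain ⟨h1, h2, h3⟩ := h
    intro k hk
    have e : findG k (.node l k0 q r) = cd (Nat.beq k k0) q
      (cd (Nat.ble k k0) (findG k l) (findG k r)) := rfl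
    rw [e, cd_eq, cd_eq] at hk ⊢
    rcases hb : Nat.beq k k0 with _ | _
    · rw [hb] at hk
      rcases hb' : Nat.ble k k0 with _ | _
      · rw [hb'] at hk
        simp only [cond_false] at hk ⊢
        exact ihr h3 k hk
      · rw [hb'] at hk
        simp only [cond_false, cond_true] at hk ⊢
        exact ihl h1 k hk
    · simp only [cond_true]
      have : k = k0 := Nat.eq_of_beq_eq_true hb
      rw [this]; exact h2

/-! ### The chunk theorem -/

theorem sumG_eq (mk : Bool) (T : GT) (D : DT) (w top : ℕ) (is : List Ins) :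
    sumG mk T D w top is
      = ((allL mk is).map fun u => lfG T D w top u.1 u.2.1 u.2.2.1 u.2.2.2.1 u.2.2.2.2).sum := by
  induction is with
  | nil => rfl
  | cons i is ih =>
    have e : sumG mk T D w top (i :: is) = valG mk T D w top i + sumG mk T D w top is := rfl
    have e2 : allL mk (i :: is) = (i.lvs mk).map (fun t => (i.h, t)) ++ allL mk is := by
      simp [allL]
    have e3 : valG mk T D w top i
        = ((i.lvs mk).map fun t => lfG T D w top i.h t.1 t.2.1 t.2.2.1 t.2.2.2).sum := by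
      unfold valG Ins.lvs
      rw [runR_eq]
      have := run_nat cmN chN facN (fun a b : List Leaf => a ++ b) Nat.add
        (fun L : List Leaf => (L.map fun t => lfG T D w top i.h t.1 t.2.1 t.2.2.1 t.2.2.2).sum)
        (fun a b => by simp [List.map_append, List.sum_append]) (trN mk) insN
        (fun l e mg s => [(l, e, mg, s)]) 8 (i.G.map fun g => (toE g.1, g.2)) (i.M.map toE) i.g
        i.lam i.s
      rw [this]
      simp
    rw [e, ih, e2, e3]
    simp only [List.map_append, List.sum_append, List.map_map]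
    rfl

/-- coefficient, position and sign of a leaf. -/
noncomputable def cg (T : GT) (D : DT) (u : ℕ × Leaf) : ℕ × ℕ × ℕ :=
  let q := findG (keyN (u.2.2.1 % 2) u.1 u.2.1) T
  (u.2.2.2.1 * 6 ^ (u.2.2.1 / 2 + q % 16),
    if q = 0 then 0 else findD D (q / 16 - 1), u.2.2.2.2)

theorem lfG_eq (T : GT) (D : DT) (w top : ℕ) (u : ℕ × Leaf) :
    lfG T D w top u.1 u.2.1 u.2.2.1 u.2.2.2.1 u.2.2.2.2
      = ctr w top (cg T D u).1 (cg T D u).2.1 (cg T D u).2.2 := by
  unfold lfG cg
  simp only [force_eq, pkR_eq, cd_eq]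
  have e1 : Nat.add (Nat.mod u.2.2.1 2) (Nat.mul 2 (Nat.add u.1 (Nat.mul 1073741824 (pk u.2.1))))
      = keyN (u.2.2.1 % 2) u.1 u.2.1 := rfl
  rw [e1]
  generalize findG (keyN (u.2.2.1 % 2) u.1 u.2.1) T = q
  have e2 : (bif Nat.beq q 0 then 0 else findD D (Nat.sub (Nat.div q 16) 1))
      = if q = 0 then 0 else findD D (q / 16 - 1) := by
    by_cases h : q = 0
    · rw [h]; rfl
    · have : Nat.beq q 0 = false := by rwa [← Bool.not_eq_true, Nat.beq_eq]
      rw [this, if_neg h]; rfl
  rw [e2]
  rfl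

theorem sum_cc (B : List (ℕ × ℕ × ℕ)) (P : ℕ) (h : ∀ t ∈ B, pos t < P) :
    ∑ p ∈ range P, cc B p = SS B := by
  induction B with
  | nil => simp [cc, SS]
  | cons t B ih =>
    have h1 := ih fun t ht => h t (List.mem_cons_of_mem _ ht)
    have h2 : pos t < P := h t (by simp)
    have e1 : ∀ p, cc (t :: B) p = (if pos t = p then t.1 else 0) + cc B p := fun p => by
      simp [cc]
    have e2 : SS (t :: B) = t.1 + SS B := by simp [SS]
    simp only [e1, Finset.sum_add_distrib]
    rw [h1, e2, Finset.sum_ite_eq, if_pos (by simpa using h2)]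

/-- **The chunk theorem with a global table.** -/
theorem chunkG {mk : Bool} {K : ℕ} {x : Fin 7 → Fin 7 → ℂ} (hx : H138.Good mk x) (hN : N7x x)
    {w W n : ℕ} {T : GT} {D : DT} {is : List Ins} {N : ℕ} {val : ℕ → ℝ}
    (hT : TOK K x val T) (hc : chkG K w n D is N = true)
    (hs : Nat.beq (sumG mk T D w (Nat.mul w (Nat.mul 2 (Nat.succ n))) is) N = true) :
    RelPack W val (sc W (fun p => dgw w N (Nat.mul 2 p)) D)
      (sc W (fun p => dgw w N (Nat.succ (Nat.mul 2 p))) D) (2 ^ w) := by
  simp only [chkG, Bool.and_eq_true, Nat.ble_eq, Nat.beq_eq] at hc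
  obtain ⟨⟨⟨⟨hK, hI⟩, hP⟩, hTop⟩, hZ⟩ := hc
  have hI' := allI_spec hI
  have hs' := Nat.eq_of_beq_eq_true hs
  have hsh : ∀ a, Nat.shiftLeft 1 a = 2 ^ a := fun a => by
    have : Nat.shiftLeft 1 a = 1 <<< a := rfl
    rw [this, Nat.shiftLeft_eq, one_mul]
  rw [hsh] at hTop hZ
  obtain ⟨hlen, hpos⟩ := posD_spec D 1 0 (by rw [hP]; exact Nat.succ_ne_zero n)
  have hn : (flat D 0).length = n := by rw [hP] at hlen; omega
  set P := 2 * (n + 1) with hPd
  set L := allL mk is with hL
  set B := L.map (cg T D) with hB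
  have hid : ∀ u ∈ L, (cg T D u).2.1 ≤ n := by
    intro u _
    have e : (cg T D u).2.1 = if findG (keyN (u.2.2.1 % 2) u.1 u.2.1) T = 0 then 0 else
      findD D (findG (keyN (u.2.2.1 % 2) u.1 u.2.1) T / 16 - 1) := rfl
    rw [e]
    split_ifs with h
    · exact Nat.zero_le _
    · rcases findD_mem D (findG (keyN (u.2.2.1 % 2) u.1 u.2.1) T / 16 - 1) with h1 | h1
      · rw [h1]; exact Nat.zero_le _
      · obtain ⟨k, hk, he⟩ := List.mem_iff_getElem.1 h1
        have h2 := hpos k hk
        rw [he] at h2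
        simp only at h2
        rw [h2]; omega
  have hposB : ∀ t ∈ B, pos t < P := by
    intro t ht
    obtain ⟨u, hu, rfl⟩ := List.mem_map.1 ht
    have := hid u hu
    unfold pos
    have h2 : (cg T D u).2.2 % 2 < 2 := Nat.mod_lt _ (by norm_num)
    omega
  have hN1 : N = ∑ p ∈ range P, cc B p * (2 ^ w) ^ p + SS B * (2 ^ w) ^ P := by
    rw [← hs', sumG_eq, ← pack_eq w P B hposB, hB, List.map_map]
    congr 1
    exact List.map_congr_left fun u _ => lfG_eq T D w _ u
  have hBp : 0 < 2 ^ w := by positivity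
  have hS : SS B < 2 ^ w := by
    refine lt_of_le_of_lt (top_le (2 ^ w) hBp (∑ p ∈ range P, cc B p * (2 ^ w) ^ p) (SS B) P) ?_
    rw [← hN1]
    have e : Nat.shiftRight N (Nat.mul w (Nat.mul 2 (Nat.succ n))) = N / (2 ^ w) ^ P := by
      have : Nat.shiftRight N (Nat.mul w (Nat.mul 2 (Nat.succ n))) = N >>> (w * P) := rfl
      rw [this, Nat.shiftRight_eq_div_pow, pow_mul]
    rw [e] at hTop
    exact hTop
  have hdig : ∀ p, p < P → dig (2 ^ w) N p = cc B p := by
    intro p hp
    unfold dig
    rw [hN1]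
    exact digit_eq (2 ^ w) (cc B) (SS B) P (fun p => lt_of_le_of_lt (cc_le B p) hS) p hp
  have hz : (2 ^ w) ^ 2 ∣ N := by
    have : Nat.mod N (2 ^ (Nat.mul 2 w)) = N % 2 ^ (2 * w) := rfl
    rw [this, mul_comm, pow_mul] at hZ
    exact Nat.dvd_of_mod_eq_zero hZ
  have hc0 : cc B 0 = 0 := by
    rw [← hdig 0 (by omega)]
    unfold dig
    rw [pow_zero, Nat.div_one]
    exact Nat.mod_eq_zero_of_dvd ((Dvd.intro_left (2 ^ w) (by ring)).trans hz)
  have hc1 : cc B 1 = 0 := by
    rw [← hdig 1 (by omega)]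
    unfold dig
    obtain ⟨q, rfl⟩ := hz
    rw [pow_one, pow_two, mul_assoc, Nat.mul_div_cancel_left _ hBp, Nat.mul_mod_right]
  -- classes of the positions
  let F : ℕ → ℝ := fun p => match p with
    | 0 => 0
    | k + 1 => ((flat D 0)[k]?).elim 0 fun u => val u.2
  let G : ℕ → ℝ := fun p => (-1) ^ p * F (p / 2)
  have hval : ∀ u ∈ L, (-1 : ℝ) ^ u.2.2.2.2 * ((co .nil u).1 : ℝ) *
      nv K x (u.2.2.1 % 2) u.1 u.2.1 = (2 * 6 ^ K) * (((cg T D u).1 : ℝ) * G (pos (cg T D u))) := by
    intro u hu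
    obtain ⟨i, hi, hih⟩ := mem_allL hu
    have hiok := hI' i hi
    have hih' : u.1 ≤ 1073741823 := by
      simp only [Ins.ok, Bool.and_eq_true, Nat.ble_eq] at hiok
      rw [hih]
      exact hiok.1.1.2
    have hV := Vk_eq K x (h := u.1) u.2.1 (Nat.mod_lt u.2.2.1 (by norm_num)) (by omega)
    have hco : ((co .nil u).1 : ℝ) * nv K x (u.2.2.1 % 2) u.1 u.2.1
        = (u.2.2.2.1 : ℝ) * 6 ^ (u.2.2.1 / 2) * uv K x (u.2.2.1 % 2) u.1 u.2.1 := by
      have : (co .nil u).1 = u.2.2.2.1 * p6 (u.2.2.1 / 2 + lenN u.2.1) := rfl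
      rw [this, p6_eq, lenN_eq, ← uv_nv]; push_cast; rw [pow_add]; ring
    rw [mul_assoc, hco]
    have h2 : (cg T D u).2.2 % 2 < 2 := Nat.mod_lt _ (by norm_num)
    have hp2 : pos (cg T D u) / 2 = (cg T D u).2.1 := by unfold pos; omega
    have hsgn : (-1 : ℝ) ^ pos (cg T D u) = (-1) ^ u.2.2.2.2 := by
      unfold pos
      rw [pow_add, pow_mul]
      have : (cg T D u).2.2 = u.2.2.2.2 := rfl
      rw [this]
      conv_rhs => rw [← Nat.div_add_mod u.2.2.2.2 2, pow_add, pow_mul]
      norm_num
    have e1 : (cg T D u).2.1 = if findG (keyN (u.2.2.1 % 2) u.1 u.2.1) T = 0 then 0 else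
      findD D (findG (keyN (u.2.2.1 % 2) u.1 u.2.1) T / 16 - 1) := rfl
    have e0 : (cg T D u).1 = u.2.2.2.1 * 6 ^ (u.2.2.1 / 2 +
      findG (keyN (u.2.2.1 % 2) u.1 u.2.1) T % 16) := rfl
    have hjunk : (cg T D u).2.1 = 0 → u.2.2.2.1 = 0 := by
      intro h0
      have h1 := le_cc (List.mem_map_of_mem (f := cg T D) hu)
      have h3 : cc B (pos (cg T D u)) = 0 := by
        have : pos (cg T D u) = 0 ∨ pos (cg T D u) = 1 := by unfold pos; omega
        rcases this with h | h
        · rw [h, hc0]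
        · rw [h, hc1]
      have h4 : (cg T D u).1 = 0 := by
        rw [← hB, h3] at h1; omega
      rw [e0] at h4
      have : (0 : ℕ) < 6 ^ (u.2.2.1 / 2 +
        findG (keyN (u.2.2.1 % 2) u.1 u.2.1) T % 16) := by positivity
      rcases Nat.mul_eq_zero.1 h4 with h | h
      · exact h
      · omega
    by_cases hq : findG (keyN (u.2.2.1 % 2) u.1 u.2.1) T = 0
    · rw [if_pos hq] at e1
      have h5 := hjunk e1
      rw [e0, h5]; simp
    · rw [if_neg hq] at e1
      rcases findD_mem D (findG (keyN (u.2.2.1 % 2) u.1 u.2.1) T / 16 - 1) with h1 | h1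
      · rw [h1] at e1
        have h5 := hjunk e1
        rw [e0, h5]; simp
      · obtain ⟨k, hk, he⟩ := List.mem_iff_getElem.1 h1
        have h3 := hpos k hk
        rw [he] at h3
        simp only at h3
        have h4 : (cg T D u).2.1 = k + 1 := by rw [e1, h3]; omega
        have hF : F (k + 1) = val (findG (keyN (u.2.2.1 % 2) u.1 u.2.1) T / 16 - 1) := by
          show ((flat D 0)[k]?).elim 0 (fun u => val u.2) = _
          rw [List.getElem?_eq_getElem hk, he]; rfl
        have hG : G (pos (cg T D u)) = (-1) ^ u.2.2.2.2 *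
            val (findG (keyN (u.2.2.1 % 2) u.1 u.2.1) T / 16 - 1) := by
          show (-1 : ℝ) ^ pos (cg T D u) * F (pos (cg T D u) / 2) = _
          rw [hp2, h4, hF, hsgn]
        have hTk := hT _ hq
        rw [hV] at hTk
        rw [hG, e0, hTk]
        push_cast
        rw [pow_add]
        ring
  have hsum := real_zero hx hN hK .nil is hI'
  have hsum2 : (B.map fun t => (t.1 : ℝ) * G (pos t)).sum = 0 := by
    have h6 : (2 * 6 ^ K : ℝ) ≠ 0 := by positivity
    have h7 : (2 * 6 ^ K : ℝ) * (B.map fun t => (t.1 : ℝ) * G (pos t)).sum = 0 := by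
      rw [hB, List.map_map, ← List.sum_map_mul_left, ← hsum]
      congr 1
      refine List.map_congr_left fun u hu => ?_
      rw [hval u hu]; rfl
    exact (mul_eq_zero.1 h7).resolve_left h6
  rw [sum_pos B P hposB G, hPd, sum_range_two_mul] at hsum2
  have hk : ∀ k ∈ range (n + 1), ((cc B (2 * k) : ℝ) * G (2 * k) + (cc B (2 * k + 1) : ℝ) *
      G (2 * k + 1)) = ((cc B (2 * k) : ℝ) - cc B (2 * k + 1)) * F k := by
    intro k _
    have a1 : G (2 * k) = F k := by
      show (-1 : ℝ) ^ (2 * k) * F (2 * k / 2) = _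
      rw [pow_mul, show 2 * k / 2 = k by omega]; norm_num
    have a2 : G (2 * k + 1) = - F k := by
      show (-1 : ℝ) ^ (2 * k + 1) * F ((2 * k + 1) / 2) = _
      rw [pow_succ, pow_mul, show (2 * k + 1) / 2 = k by omega]; norm_num
    rw [a1, a2]; ring
  rw [Finset.sum_congr rfl hk, Finset.sum_range_succ'] at hsum2
  have hF0 : F 0 = 0 := rfl
  rw [hF0, mul_zero, add_zero] at hsum2
  -- the two packed sums
  have hd : ∀ p, dgw w N p = dig (2 ^ w) N p := by
    intro p
    unfold dgw dig
    rw [hsh]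
    show (N >>> (w * p)) % 2 ^ w = _
    rw [Nat.shiftRight_eq_div_pow, pow_mul]
  have hSum : ∑ p ∈ range P, cc B p = SS B := sum_cc B P hposB
  have hrep : ∀ f : ℕ → ℕ, ∑ k ∈ range n, f (k + 1) ≤ SS B →
      H129.NRep W val (sc W f D) (2 ^ w) (∑ k ∈ range n, (f (k + 1) : ℝ) * F (k + 1)) := by
    intro f hf
    have h1 := H129.NRep.terms (W := W) (val := val) ((flat D 0).map fun u => (f u.1, u.2))
    have h2 : H129.tP W ((flat D 0).map fun u => (f u.1, u.2)) = sc W f D := by
      have h3 := sc_flat W f D 0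
      rw [mul_zero, pow_zero, mul_one] at h3
      rw [h3]
      generalize flat D 0 = C
      induction C with
      | nil => rfl
      | cons u C ih =>
        have e : H129.tP W (((u :: C).map fun u => (f u.1, u.2)))
            = Nat.shiftLeft (f u.1) (Nat.mul W u.2)
              + H129.tP W (C.map fun u => (f u.1, u.2)) := rfl
        have e1 : Nat.shiftLeft (f u.1) (Nat.mul W u.2) = f u.1 * 2 ^ (W * u.2) :=
          Nat.shiftLeft_eq _ _
        rw [e, ih, e1, List.map_cons, List.sum_cons]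
    have h4 : H129.tM ((flat D 0).map fun u => (f u.1, u.2)) = ∑ k ∈ range n, f (k + 1) := by
      have h8 : ∀ k ∈ range n, f (k + 1) = ((flat D 0)[k]?).elim 0 fun u => f u.1 := by
        intro k hk
        have hk' : k < (flat D 0).length := by rw [hn]; simpa using hk
        rw [List.getElem?_eq_getElem hk']
        have h9 := hpos k hk'
        simp only [Option.elim_some]
        rw [h9, add_comm 1 k]
      rw [Finset.sum_congr rfl h8, ← hn]
      generalize flat D 0 = C
      induction C with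
      | nil => rfl
      | cons u C ih =>
        have e : H129.tM (((u :: C).map fun u => (f u.1, u.2)))
            = f u.1 + H129.tM (C.map fun u => (f u.1, u.2)) := rfl
        rw [e, List.length_cons, Finset.sum_range_succ', ih]
        simp [add_comm]
    have h7 : H129.tV val ((flat D 0).map fun u => (f u.1, u.2))
        = ∑ k ∈ range n, (f (k + 1) : ℝ) * F (k + 1) := by
      unfold H129.tV
      rw [List.map_map]
      have h8 : ∀ k ∈ range n, (f (k + 1) : ℝ) * F (k + 1)
          = ((flat D 0)[k]?).elim 0 fun u => (f u.1 : ℝ) * val u.2 := by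
        intro k hk
        have hk' : k < (flat D 0).length := by rw [hn]; simpa using hk
        have hF : F (k + 1) = val ((flat D 0)[k]).2 := by
          show ((flat D 0)[k]?).elim 0 (fun u => val u.2) = _
          rw [List.getElem?_eq_getElem hk']; rfl
        rw [hF, List.getElem?_eq_getElem hk']
        have h9 := hpos k hk'
        simp only [Option.elim_some]
        rw [h9, add_comm 1 k]
      rw [Finset.sum_congr rfl h8, ← hn]
      generalize flat D 0 = C
      induction C with
      | nil => simp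
      | cons u C ih =>
        rw [List.map_cons, List.sum_cons, List.length_cons, Finset.sum_range_succ', ih]
        simp [add_comm]
    rw [h2, h4, h7] at h1
    exact h1.mono (hf.trans hS.le)
  -- split of the total
  have hsplit : ∑ k ∈ range (n + 1), (cc B (2 * k) + cc B (2 * k + 1)) = SS B := by
    rw [← hSum, hPd]
    have h2 : ∀ m, ∑ p ∈ range (2 * m), cc B p
        = ∑ k ∈ range m, (cc B (2 * k) + cc B (2 * k + 1)) := by
      intro m
      induction m with
      | zero => simp
      | succ m ih =>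
        rw [Finset.sum_range_succ, ← ih, show 2 * (m + 1) = 2 * m + 1 + 1 by ring,
          Finset.sum_range_succ, Finset.sum_range_succ]
        ring
    exact (h2 (n + 1)).symm
  rw [Finset.sum_add_distrib, Finset.sum_range_succ', Finset.sum_range_succ'] at hsplit
  have g1 : ∀ k ∈ range n, dgw w N (Nat.mul 2 (k + 1)) = cc B (2 * (k + 1)) := by
    intro k hk
    rw [hd]
    have h1 : k < n := by simpa using hk
    exact hdig (2 * (k + 1)) (by omega)
  have g2 : ∀ k ∈ range n, dgw w N (Nat.succ (Nat.mul 2 (k + 1))) = cc B (2 * (k + 1) + 1) := by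
    intro k hk
    rw [hd]
    have h1 : k < n := by simpa using hk
    exact hdig (2 * (k + 1) + 1) (by omega)
  refine ⟨∑ k ∈ range n, (cc B (2 * (k + 1)) : ℝ) * F (k + 1), ?_, ?_⟩
  · have h1 := hrep (fun p => dgw w N (Nat.mul 2 p)) (by
      rw [Finset.sum_congr rfl g1]; omega)
    rw [Finset.sum_congr rfl fun k hk => by rw [g1 k hk]] at h1
    exact h1
  · have h1 := hrep (fun p => dgw w N (Nat.succ (Nat.mul 2 p))) (by
      rw [Finset.sum_congr rfl g2]; omega)
    rw [Finset.sum_congr rfl fun k hk => by rw [g2 k hk]] at h1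
    have e : ∑ k ∈ range n, (cc B (2 * (k + 1)) : ℝ) * F (k + 1)
        = ∑ k ∈ range n, (cc B (2 * (k + 1) + 1) : ℝ) * F (k + 1) := by
      rw [← sub_eq_zero, ← Finset.sum_sub_distrib, ← hsum2]
      exact Finset.sum_congr rfl fun k _ => by ring
    rw [e]
    exact h1

end Vale.Agent.P355.H182
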