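import Vale.Agent.P355.H182.FamN

/-! (N7) relations before expansion. -/

namespace Vale.Agent.P355.H182

open Finset Vale.Agent.P355 Vale.Agent.P355.H138

variable {K : ℕ} {y : Fin 7 → Fin 7 → ℂ}

theorem n7_zero {m : Bool} (hy : Good m y) (hNy : N7c y) (i0 : ℕ) (h : List ℤ)
    (M L : List (List ℤ)) (hok : nOK K i0 h M L = true) :
    ∑ φ : Fin K → Fin 6, head y φ (cw K h) * (M.map (csum K y φ)).prod *
      inj (L.map (cev K y φ)) ∅ = 0 := by
  simp only [nOK, Bool.and_eq_true, decide_eq_true_eq, beq_iff_eq, List.all_eq_true] at hok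
  obtain ⟨⟨⟨⟨h1, hK⟩, hh⟩, hM⟩, hL⟩ := hok
  obtain ⟨p0, hp0⟩ := exists_idx (K := K) (by omega : i0 ≠ 0) hK
  have e2 := sum_update_all (fun φ : Fin K → Fin 6 => head y φ (cw K h) *
    (M.map (csum K y φ)).prod * inj (L.map (cev K y φ)) ∅) p0
  have e3 : ∀ φ : Fin K → Fin 6, ∑ a : Fin 6, head y (Function.update φ p0 a) (cw K h) *
    (M.map (csum K y (Function.update φ p0 a))).prod *
      inj (L.map (cev K y (Function.update φ p0 a))) ∅ = 0 := by
    intro φ
    have f1 : ∀ a, head y (Function.update φ p0 a) (cw K h) = head y φ (cw K h) := fun a =>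
      head_update φ p0 a h (by unfold cw; rw [hp0]; exact hh)
    have f2 : ∀ a, (M.map (csum K y (Function.update φ p0 a))).prod
        = (M.map (csum K y φ)).prod := by
      intro a
      congr 1
      refine List.map_congr_left fun c hc => csum_update φ p0 a c ?_
      unfold cw; rw [hp0]; exact hM c hc
    have f3 : ∀ a : Fin 6, L.map (cev K y (Function.update φ p0 a))
        = (L.map fun c => (cev0 K y φ p0 c, c.getD i0 0)).map
          fun t b => t.1 b * y a.castSucc b.castSucc ^ t.2 := by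
      intro a
      rw [List.map_map]
      refine List.map_congr_left fun c _ => ?_
      funext b
      rw [cev_update]
      simp only [Function.comp, cw, hp0]
    simp only [f1, f2, f3]
    have f4 := inj_lin (A := Fin 6) (fun a b => y a.castSucc b.castSucc)
      (L.map fun c => (cev0 K y φ p0 c, c.getD i0 0))
      (fun _ => head y φ (cw K h) * (M.map (csum K y φ)).prod) ∅ ?_
    · exact f4
    · intro bs hl hn _
      have hlen : L.length = 6 := by
        have := congrArg List.length hL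
        simpa using this
      rw [List.length_map, hlen] at hl
      obtain ⟨b0, b1, b2, b3, b4, b5, rfl⟩ : ∃ b0 b1 b2 b3 b4 b5, bs = [b0, b1, b2, b3, b4, b5] := by
        rcases bs with _ | ⟨b0, _ | ⟨b1, _ | ⟨b2, _ | ⟨b3, _ | ⟨b4, _ | ⟨b5, _ | ⟨b6, bs⟩⟩⟩⟩⟩⟩⟩ <;>
          simp at hl
        exact ⟨b0, b1, b2, b3, b4, b5, rfl⟩
      obtain ⟨c0, c1, c2, c3, c4, c5, rfl⟩ : ∃ c0 c1 c2 c3 c4 c5, L = [c0, c1, c2, c3, c4, c5] := by
        rcases L with _ | ⟨b0, _ | ⟨b1, _ | ⟨b2, _ | ⟨b3, _ | ⟨b4, _ | ⟨b5, _ | ⟨b6, bs⟩⟩⟩⟩⟩⟩⟩ <;>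
          simp at hlen
        exact ⟨b0, b1, b2, b3, b4, b5, rfl⟩
      simp only [List.map_cons, List.map_nil, List.cons.injEq, and_true] at hL
      obtain ⟨g0, g1, g2, g3, g4, g5⟩ := hL
      have hs := hNy b0 b1 b2 b3 b4 b5 hn
      rw [← Finset.mul_sum]
      simp only [List.map_cons, List.map_nil, List.zipWith_cons_cons, List.zipWith_nil_left,
        List.prod_cons, List.prod_nil, g0, g1, g2, g3, g4, g5, zpow_one, zpow_neg_one,
        hy.1.inv, mul_one]
      refine mul_eq_zero_of_right _ ?_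
      rw [← hs]
      exact Finset.sum_congr rfl fun a _ => by ring
  rw [Finset.sum_eq_zero fun φ _ => e3 φ] at e2
  have h6 : (6 : ℂ) ≠ 0 := by norm_num
  exact (mul_eq_zero.1 e2.symm).resolve_left h6

end Vale.Agent.P355.H182
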