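import Vale.Agent.P355.H182.Blk
import Vale.Agent.P355.H182.FamN

/-! Fast expansion of `inj`: blocks are chosen group by group, columns are natural number codes. -/

namespace Vale.Agent.P355.H182

open Finset Vale.Agent.P355 Vale.Agent.P355.H138

/-- `t 0 + ... + t n`. -/
def sumTo {R : Type} (pl : R → R → R) (t : ℕ → R) : ℕ → R
  | 0 => t 0
  | n + 1 => pl (t (n + 1)) (sumTo pl t n)

/-- choose what is merged with the current column. -/
def sel {W R : Type} (cm : W → ℕ → W → W) (ch : ℕ → ℕ → ℕ) (pl : R → R → R)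
    (f : W → ℕ → ℕ → List (W × ℕ) → R) : List (W × ℕ) → W → ℕ → ℕ → List (W × ℕ) → R
  | [], cur, k, c, rest => f cur k c rest
  | (v, m) :: D, cur, k, c, rest => sumTo pl (fun j => sel cm ch pl f D (cm cur j v) (Nat.add k j)
      (Nat.mul c (ch m j)) (cond (Nat.beq m j) rest ((v, Nat.sub m j) :: rest))) m

/-- expansion, block by block. -/
def run' {W R : Type} (cm : W → ℕ → W → W) (ch : ℕ → ℕ → ℕ) (fac : ℕ → ℕ) (pl : R → R → R)
    (tr : W → ℕ) (ins : W → List W → List W) (lf : List W → ℕ → ℕ → ℕ → R) :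
    ℕ → List (W × ℕ) → List W → ℕ → ℕ → ℕ → R
  | 0, _, K, e, mg, s => lf K e mg s
  | _ + 1, [], K, e, mg, s => lf K e mg s
  | n + 1, (v, m) :: D, K, e, mg, s => sel cm ch pl (fun cur k c rest =>
      run' cm ch fac pl tr ins lf n rest (cond (Nat.beq (tr cur) 0) (ins cur K) K)
        (Nat.add e (tr cur)) (Nat.mul mg (Nat.mul c (fac k))) (Nat.add s k))
      (cond (Nat.beq m 1) D ((v, Nat.sub m 1) :: D)) v 0 1 []

/-! ### Naturality in the target -/

section nat

variable {W R R' : Type} (cm : W → ℕ → W → W) (ch : ℕ → ℕ → ℕ) (fac : ℕ → ℕ) (pl : R → R → R)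
  (pl' : R' → R' → R') (ψ : R → R') (hψ : ∀ a b, ψ (pl a b) = pl' (ψ a) (ψ b))
include hψ

theorem sumTo_nat (t : ℕ → R) (n : ℕ) : ψ (sumTo pl t n) = sumTo pl' (fun j => ψ (t j)) n := by
  induction n with
  | zero => rfl
  | succ n ih => simp only [sumTo, hψ, ih]

theorem sel_nat (f : W → ℕ → ℕ → List (W × ℕ) → R) (D : List (W × ℕ)) (cur : W) (k c : ℕ)
    (rest : List (W × ℕ)) :
    ψ (sel cm ch pl f D cur k c rest)
      = sel cm ch pl' (fun cur k c rest => ψ (f cur k c rest)) D cur k c rest := by
  induction D generalizing cur k c rest with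
  | nil => rfl
  | cons g D ih =>
    obtain ⟨v, m⟩ := g
    simp only [sel, sumTo_nat pl pl' ψ hψ, ih]

theorem run_nat (tr : W → ℕ) (ins : W → List W → List W) (lf : List W → ℕ → ℕ → ℕ → R) (n : ℕ)
    (G : List (W × ℕ)) (K : List W) (e mg s : ℕ) :
    ψ (run' cm ch fac pl tr ins lf n G K e mg s)
      = run' cm ch fac pl' tr ins (fun K e mg s => ψ (lf K e mg s)) n G K e mg s := by
  induction n generalizing G K e mg s with
  | zero => rfl
  | succ n ih =>
    rcases G with _ | ⟨⟨v, m⟩, D⟩
    · rfl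
    · simp only [run', sel_nat cm ch pl pl' ψ hψ, ih]

end nat

/-! ### Codes of columns -/

/-- integer code. -/
def encZ : List ℤ → ℤ
  | [] => 0
  | a :: l => a + 64 * encZ l

/-- modulus of the column codes: five digits. -/
def NN : ℕ := 1073741824

/-- column code. -/
def enc (v : List ℤ) : ℕ := (encZ v % 1073741824).toNat

theorem encZ_addC (v w : List ℤ) : encZ (addC v w) = encZ v + encZ w := by
  induction v generalizing w with
  | nil => simp [addC, encZ]
  | cons a v ih =>
    rcases w with _ | ⟨b, w⟩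
    · simp [addC, encZ]
    · simp only [addC, encZ, ih]; ring

/-- `j` times a vector. -/
def smulC (j : ℕ) (v : List ℤ) : List ℤ := v.map fun a => (j : ℤ) * a

theorem encZ_smulC (j : ℕ) (v : List ℤ) : encZ (smulC j v) = j * encZ v := by
  induction v with
  | nil => simp [smulC, encZ]
  | cons a v ih =>
    have : smulC j (a :: v) = ((j : ℤ) * a) :: smulC j v := rfl
    rw [this]; simp only [encZ, ih]; ring

theorem getD_smulC (j : ℕ) (v : List ℤ) (i : ℕ) : (smulC j v).getD i 0 = j * v.getD i 0 := by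
  unfold smulC
  induction v generalizing i with
  | nil => simp
  | cons a v ih =>
    rcases i with _ | i
    · simp
    · simpa using ih i

/-- combination on codes. -/
def cmN (c j d : ℕ) : ℕ := Nat.mod (Nat.add c (Nat.mul j d)) 1073741824

theorem enc_cast (v : List ℤ) : ((enc v : ℕ) : ℤ) = encZ v % 1073741824 := by
  unfold enc
  exact Int.toNat_of_nonneg (Int.emod_nonneg _ (by norm_num))

theorem enc_lt (v : List ℤ) : enc v < 1073741824 := by
  have h := enc_cast v
  have := Int.emod_lt_of_pos (encZ v) (show (0 : ℤ) < 1073741824 by norm_num)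
  omega

theorem enc_cm (u v : List ℤ) (j : ℕ) : enc (addC u (smulC j v)) = cmN (enc u) j (enc v) := by
  have h1 : ((enc (addC u (smulC j v)) : ℕ) : ℤ) = ((cmN (enc u) j (enc v) : ℕ) : ℤ) := by
    rw [enc_cast, encZ_addC, encZ_smulC]
    have : ((cmN (enc u) j (enc v) : ℕ) : ℤ) = (((enc u : ℕ) : ℤ) + j * (enc v : ℕ)) % 1073741824 := by
      unfold cmN
      simp only [Nat.add_eq, Nat.mul_eq]
      exact_mod_cast rfl
    rw [this, enc_cast, enc_cast]
    exact Int.ModEq.add (Int.mod_modEq _ _).symm ((Int.mod_modEq _ _).symm.mul_left _)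
  exact_mod_cast h1

/-- small vectors: at most five entries, at most `31` in absolute value. -/
def Sml (v : List ℤ) : Prop := v.length ≤ 5 ∧ ∀ i, |v.getD i 0| ≤ 31

theorem encZ_sub_eq (n : ℕ) (v w : List ℤ) (hv : v.length ≤ n) (hw : w.length ≤ n) :
    encZ v - encZ w = ∑ i ∈ range n, (v.getD i 0 - w.getD i 0) * 64 ^ i := by
  induction n generalizing v w with
  | zero =>
    have h1 : v = [] := List.length_eq_zero_iff.1 (by omega)
    have h2 : w = [] := List.length_eq_zero_iff.1 (by omega)
    subst h1 h2; simp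
  | succ n ih =>
    rw [Finset.sum_range_succ']
    have key : ∀ (a b : ℤ) (v w : List ℤ), v.length ≤ n → w.length ≤ n →
        (a + 64 * encZ v) - (b + 64 * encZ w)
          = ∑ i ∈ range n, (v.getD i 0 - w.getD i 0) * 64 ^ (i + 1) + (a - b) * 64 ^ 0 := by
      intro a b v w hv hw
      have := ih v w hv hw
      have e : ∑ i ∈ range n, (v.getD i 0 - w.getD i 0) * (64 : ℤ) ^ (i + 1)
          = 64 * ∑ i ∈ range n, (v.getD i 0 - w.getD i 0) * 64 ^ i := by
        rw [Finset.mul_sum]; exact Finset.sum_congr rfl fun i _ => by ring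
      rw [e, ← this]; ring
    rcases v with _ | ⟨a, v⟩ <;> rcases w with _ | ⟨b, w⟩
    · simp
    · have := key 0 b [] w (by simp) (by simpa using hw)
      simpa [encZ] using this
    · have := key a 0 v [] (by simpa using hv) (by simp)
      simpa [encZ] using this
    · have := key a b v w (by simpa using hv) (by simpa using hw)
      simpa [encZ] using this

theorem enc_inj {v w : List ℤ} (hv : Sml v) (hw : Sml w) (h : enc v = enc w) (i : ℕ) :
    v.getD i 0 = w.getD i 0 := by
  have h1 : (encZ v - encZ w) % 1073741824 = 0 := by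
    have := enc_cast v
    rw [h, enc_cast] at this
    exact Int.emod_eq_emod_iff_emod_sub_eq_zero.1 this.symm
  have h2 := encZ_sub_eq 5 v w hv.1 hw.1
  have hb : ∀ i, |v.getD i 0 - w.getD i 0| ≤ 62 := by
    intro i
    have a := abs_le.1 (hv.2 i)
    have b := abs_le.1 (hw.2 i)
    rw [abs_le]; constructor <;> linarith [a.1, a.2, b.1, b.2]
  have h3 : |encZ v - encZ w| < 1073741824 := by
    rw [h2]
    refine lt_of_le_of_lt (Finset.abs_sum_le_sum_abs _ _) ?_
    have : ∑ i ∈ range 5, |(v.getD i 0 - w.getD i 0) * 64 ^ i| ≤ ∑ i ∈ range 5, (62 : ℤ) * 64 ^ i := by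
      refine Finset.sum_le_sum fun i _ => ?_
      rw [abs_mul, abs_of_nonneg (show (0 : ℤ) ≤ 64 ^ i by positivity)]
      exact mul_le_mul_of_nonneg_right (hb i) (by positivity)
    refine lt_of_le_of_lt this ?_
    norm_num [Finset.sum_range_succ]
  have h4 : encZ v - encZ w = 0 := Int.eq_zero_of_abs_lt_dvd (Int.dvd_of_emod_eq_zero h1) h3
  rw [h4] at h2
  by_cases hi : i < 5
  · have := digits_zero 64 5 (fun i => v.getD i 0 - w.getD i 0)
      (fun i _ => lt_of_le_of_lt (hb i) (by norm_num)) h2.symm i hi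
    linarith
  · rw [List.getD_eq_getElem?_getD, List.getD_eq_getElem?_getD,
      List.getElem?_eq_none (by have := hv.1; omega), List.getElem?_eq_none (by have := hw.1; omega)]

open Classical in
/-- a small vector with the given code. -/
noncomputable def decN (c : ℕ) : List ℤ := if h : ∃ v, Sml v ∧ enc v = c then h.choose else []

theorem decN_spec {v : List ℤ} (hv : Sml v) (i : ℕ) : (decN (enc v)).getD i 0 = v.getD i 0 := by
  have h : ∃ w, Sml w ∧ enc w = enc v := ⟨v, hv, rfl⟩
  unfold decN
  rw [dif_pos h]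
  exact enc_inj h.choose_spec.1 hv h.choose_spec.2 i

variable {x : Fin 7 → Fin 7 → ℂ} {K : ℕ}

theorem cw_decN {v : List ℤ} (hv : Sml v) : cw K (decN (enc v)) = cw K v := by
  funext p; exact decN_spec hv _

/-- column sum of a code. -/
noncomputable def cvN (K : ℕ) (x : Fin 7 → Fin 7 → ℂ) (φ : Fin K → Fin 6) (c : ℕ) : ℂ :=
  csum K x φ (decN (c % 1073741824))

theorem cvN_enc (φ : Fin K → Fin 6) {v : List ℤ} (hv : Sml v) :
    cvN K x φ (enc v) = csum K x φ v := by
  unfold cvN; rw [csum_eq, csum_eq, Nat.mod_eq_of_lt (enc_lt v), cw_decN hv]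

/-- product over a list of codes. -/
noncomputable def pvN (K : ℕ) (x : Fin 7 → Fin 7 → ℂ) (φ : Fin K → Fin 6) (l : List ℕ) : ℂ :=
  (l.map (cvN K x φ)).prod

/-! ### Executable parts -/

/-- binomial coefficients by a table. -/
def chN (m j : ℕ) : ℕ := Nat.land (Nat.shiftRight
  53823250326501770813008564296606564197607992890401620721877419947544463983519993326582676718469111320659570177958868488497530767958770078350131219922945
  (Nat.mul 8 (Nat.add (Nat.mul 8 m) j))) 255

/-- factorials by a table. -/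
def facN (k : ℕ) : ℕ := Nat.land (Nat.shiftRight 26169233211437613059194070979357769729 (Nat.mul 16 k))
  65535

theorem chN_eq : ∀ m < 8, ∀ j < 8, chN m j = m.choose j := by decide

theorem facN_eq : ∀ k < 8, facN k = k.factorial := by decide

/-- power of `√6` of a trivial column code. -/
def trN (mk : Bool) (c : ℕ) : ℕ :=
  cond (Nat.beq c 0) 2
  (cond (Nat.beq c 64) 1 (cond (Nat.beq c 4096) 1 (cond (Nat.beq c 262144) 1
  (cond (Nat.beq c 16777216) 1 (cond (Nat.beq c 1073741760) 1 (cond (Nat.beq c 1073737728) 1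
  (cond (Nat.beq c 1073479680) 1 (cond (Nat.beq c 1056964608) 1
  (cond mk (cond (Nat.beq c 1) 1 (cond (Nat.beq c 1073741823) 1 0)) 0)))))))))

theorem csum_of_enc {φ : Fin K → Fin 6} {v u : List ℤ} (hv : Sml v) (hu : Sml u)
    (h : enc v = enc u) : csum K x φ v = csum K x φ u := by
  rw [← cvN_enc φ hv, h, cvN_enc φ hu]

theorem sml_of {v : List ℤ} (h : v.length ≤ 5) (h1 : ∀ a ∈ v, |a| ≤ 31) : Sml v := by
  refine ⟨h, fun i => ?_⟩
  rw [List.getD_eq_getElem?_getD]
  rcases hh : v[i]? with _ | a
  · simp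
  · simpa using h1 a (List.mem_of_getElem? hh)

theorem trN_sound {mk : Bool} (hx : Good mk x) (hK : 4 ≤ K) (φ : Fin K → Fin 6) {v : List ℤ}
    (hv : Sml v) (h : trN mk (enc v) ≠ 0) : csum K x φ v = s6 ^ trN mk (enc v) := by
  have key : ∀ (u : List ℤ) (c : ℕ), u.length ≤ 5 → (∀ a ∈ u, |a| ≤ 31) → triv mk u ≠ 0 →
      enc u = c → enc v = c → csum K x φ v = s6 ^ triv mk u := by
    intro u c h1 h2 h3 h4 h5
    have hu := sml_of h1 h2
    rw [csum_of_enc hv hu (h5.trans h4.symm)]
    exact csum_triv hx φ u (by omega) h3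
  have hmk : mk = false ∨ mk = true := by cases mk <;> simp
  unfold trN at h ⊢
  by_cases c0 : enc v = 0
  · simpa [c0, triv, allZ] using key [] 0 (by simp) (by simp) (by simp [triv, allZ]) (by decide) c0
  have b0 : Nat.beq (enc v) 0 = false := by rwa [← Bool.not_eq_true, Nat.beq_eq]
  rw [b0] at h ⊢
  simp only [cond_false] at h ⊢
  by_cases c1 : enc v = 64
  · simpa [c1, triv, allZ, isPM] using key [0, 1] 64 (by simp) (by simp) (by simp [triv, allZ, isPM])
      (by decide) c1
  have b1 : Nat.beq (enc v) 64 = false := by rwa [← Bool.not_eq_true, Nat.beq_eq]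
  rw [b1] at h ⊢
  simp only [cond_false] at h ⊢
  by_cases c2 : enc v = 4096
  · simpa [c2, triv, allZ, isPM] using key [0, 0, 1] 4096 (by simp) (by simp)
      (by simp [triv, allZ, isPM]) (by decide) c2
  have b2 : Nat.beq (enc v) 4096 = false := by rwa [← Bool.not_eq_true, Nat.beq_eq]
  rw [b2] at h ⊢
  simp only [cond_false] at h ⊢
  by_cases c3 : enc v = 262144
  · simpa [c3, triv, allZ, isPM] using key [0, 0, 0, 1] 262144 (by simp) (by simp)
      (by simp [triv, allZ, isPM]) (by decide) c3
  have b3 : Nat.beq (enc v) 262144 = false := by rwa [← Bool.not_eq_true, Nat.beq_eq]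
  rw [b3] at h ⊢
  simp only [cond_false] at h ⊢
  by_cases c4 : enc v = 16777216
  · simpa [c4, triv, allZ, isPM] using key [0, 0, 0, 0, 1] 16777216 (by simp) (by simp)
      (by simp [triv, allZ, isPM]) (by decide) c4
  have b4 : Nat.beq (enc v) 16777216 = false := by rwa [← Bool.not_eq_true, Nat.beq_eq]
  rw [b4] at h ⊢
  simp only [cond_false] at h ⊢
  by_cases c5 : enc v = 1073741760
  · simpa [c5, triv, allZ, isPM] using key [0, -1] 1073741760 (by simp) (by simp)
      (by simp [triv, allZ, isPM]) (by decide) c5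
  have b5 : Nat.beq (enc v) 1073741760 = false := by rwa [← Bool.not_eq_true, Nat.beq_eq]
  rw [b5] at h ⊢
  simp only [cond_false] at h ⊢
  by_cases c6 : enc v = 1073737728
  · simpa [c6, triv, allZ, isPM] using key [0, 0, -1] 1073737728 (by simp) (by simp)
      (by simp [triv, allZ, isPM]) (by decide) c6
  have b6 : Nat.beq (enc v) 1073737728 = false := by rwa [← Bool.not_eq_true, Nat.beq_eq]
  rw [b6] at h ⊢
  simp only [cond_false] at h ⊢
  by_cases c7 : enc v = 1073479680
  · simpa [c7, triv, allZ, isPM] using key [0, 0, 0, -1] 1073479680 (by simp) (by simp)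
      (by simp [triv, allZ, isPM]) (by decide) c7
  have b7 : Nat.beq (enc v) 1073479680 = false := by rwa [← Bool.not_eq_true, Nat.beq_eq]
  rw [b7] at h ⊢
  simp only [cond_false] at h ⊢
  by_cases c8 : enc v = 1056964608
  · simpa [c8, triv, allZ, isPM] using key [0, 0, 0, 0, -1] 1056964608 (by simp) (by simp)
      (by simp [triv, allZ, isPM]) (by decide) c8
  have b8 : Nat.beq (enc v) 1056964608 = false := by rwa [← Bool.not_eq_true, Nat.beq_eq]
  rw [b8] at h ⊢
  simp only [cond_false] at h ⊢
  rcases hmk with rfl | rfl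
  · simp at h
  simp only [cond_true] at h ⊢
  by_cases c9 : enc v = 1
  · simpa [c9, triv, allZ, isPM] using key [1] 1 (by simp) (by simp)
      (by simp [triv, allZ, isPM]) (by decide) c9
  have b9 : Nat.beq (enc v) 1 = false := by rwa [← Bool.not_eq_true, Nat.beq_eq]
  rw [b9] at h ⊢
  simp only [cond_false] at h ⊢
  by_cases c10 : enc v = 1073741823
  · simpa [c10, triv, allZ, isPM] using key [-1] 1073741823 (by simp) (by simp)
      (by simp [triv, allZ, isPM]) (by decide) c10
  have b10 : Nat.beq (enc v) 1073741823 = false := by rwa [← Bool.not_eq_true, Nat.beq_eq]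
  rw [b10] at h
  simp at h

/-- sorted insertion. -/
def insN (c : ℕ) : List ℕ → List ℕ
  | [] => [c]
  | d :: l => cond (Nat.ble c d) (c :: d :: l) (d :: insN c l)

theorem pvN_ins (φ : Fin K → Fin 6) (c : ℕ) (l : List ℕ) :
    pvN K x φ (insN c l) = cvN K x φ c * pvN K x φ l := by
  induction l with
  | nil => simp [insN, pvN]
  | cons d l ih =>
    simp only [insN]
    rcases Nat.ble c d with _ | _
    · simp only [cond_false]
      unfold pvN at ih ⊢
      simp only [List.map_cons, List.prod_cons, ih]; ring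
    · simp only [cond_true]
      unfold pvN; simp

/-! ### Semantics of the expansion -/

theorem sumTo_add (t : ℕ → ℂ) (n : ℕ) : sumTo (· + ·) t n = ∑ j ∈ range (n + 1), t j := by
  induction n with
  | zero => simp [sumTo]
  | succ n ih => rw [sumTo, ih, Finset.sum_range_succ _ (n + 1), add_comm]

/-- total multiplicity. -/
def tot (G : List (List ℤ × ℕ)) : ℕ := (G.map fun g => g.2).sum

/-- total size of the coordinate `i`. -/
def bnd (i : ℕ) (G : List (List ℤ × ℕ)) : ℤ := (G.map fun g => (g.2 : ℤ) * |g.1.getD i 0|).sum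

/-- well formed groups. -/
def okG (G : List (List ℤ × ℕ)) : Prop := ∀ g ∈ G, g.1.length ≤ 5 ∧ 1 ≤ g.2 ∧ g.2 < 8

/-- codes of groups. -/
def encG (G : List (List ℤ × ℕ)) : List (ℕ × ℕ) := G.map fun g => (enc g.1, g.2)

/-- functions of groups. -/
noncomputable def evG (K : ℕ) (x : Fin 7 → Fin 7 → ℂ) (φ : Fin K → Fin 6)
    (G : List (List ℤ × ℕ)) : List (Fin 6 → ℂ) := unG (G.map fun g => (cev K x φ g.1, g.2))

theorem length_addC (v w : List ℤ) : (addC v w).length = max v.length w.length := by
  induction v generalizing w with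
  | nil => simp [addC]
  | cons a v ih =>
    rcases w with _ | ⟨b, w⟩
    · simp [addC]
    · simp [addC, ih]

theorem length_smulC (j : ℕ) (v : List ℤ) : (smulC j v).length = v.length := by simp [smulC]

theorem cev_smul (hx : Base x) (φ : Fin K → Fin 6) (j : ℕ) (v : List ℤ) :
    cev K x φ (smulC j v) = cev K x φ v ^ j := by
  funext b
  unfold cev
  rw [Pi.pow_apply, ← Finset.prod_pow]
  refine Finset.prod_congr rfl fun p _ => ?_
  unfold cw
  rw [getD_smulC, mul_comm, zpow_mul, zpow_natCast]

theorem cev_comb (hx : Base x) (φ : Fin K → Fin 6) (j : ℕ) (u v : List ℤ) :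
    cev K x φ (addC u (smulC j v)) = cev K x φ u * cev K x φ v ^ j := by
  rw [← cev_smul hx]
  funext b; exact cev_add hx φ _ _ b

theorem evG_cons (φ : Fin K → Fin 6) (v : List ℤ) (m : ℕ) (G : List (List ℤ × ℕ)) :
    evG K x φ ((v, m) :: G) = List.replicate m (cev K x φ v) ++ evG K x φ G := rfl

theorem sel_sem (hx : Base x) (φ : Fin K → Fin 6) (n : ℕ)
    (f : ℕ → ℕ → ℕ → List (ℕ × ℕ) → ℂ) (F : (Fin 6 → ℂ) → ℕ → List (Fin 6 → ℂ) → ℂ)
    (hF : ∀ g k L L', L.Perm L' → F g k L = F g k L')
    (hf : ∀ cur k c rest, okG rest → cur.length ≤ 5 → tot rest ≤ n → k < 8 →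
      (∀ i, |cur.getD i 0| + bnd i rest ≤ 31) →
      f (enc cur) k c (encG rest) = c * F (cev K x φ cur) k (evG K x φ rest))
    (D : List (List ℤ × ℕ)) (cur : List ℤ) (k c : ℕ) (rest : List (List ℤ × ℕ))
    (hD : okG D) (hr : okG rest) (hcl : cur.length ≤ 5) (ht : tot D + tot rest ≤ n)
    (hk : k + tot D < 8) (hb : ∀ i, bnd i D + |cur.getD i 0| + bnd i rest ≤ 31) :
    sel cmN chN (· + ·) f (encG D) (enc cur) k c (encG rest)
      = c * ((subs (evG K x φ D)).map fun s =>
        F (cev K x φ cur * s.2.1) (k + s.1) (s.2.2 ++ evG K x φ rest)).sum := by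
  induction D generalizing cur k c rest with
  | nil =>
    have h0 : evG K x φ [] = [] := rfl
    simp only [encG, List.map_nil, sel, h0, subs, List.map_cons, List.sum_cons, List.sum_nil,
      mul_one, add_zero, List.nil_append]
    refine hf cur k c rest hr hcl (by simpa [tot] using ht) (by omega) fun i => ?_
    have := hb i
    simpa [bnd] using this
  | cons g D ih =>
    obtain ⟨v, m⟩ := g
    have hg := hD (v, m) (by simp)
    have hD' : okG D := fun g hg => hD g (List.mem_cons_of_mem _ hg)
    have htot : tot ((v, m) :: D) = m + tot D := by simp [tot]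
    have hbnd : ∀ i, bnd i ((v, m) :: D) = m * |v.getD i 0| + bnd i D := fun i => by simp [bnd]
    have e0 : encG ((v, m) :: D) = (enc v, m) :: encG D := rfl
    rw [e0]
    simp only [sel]
    rw [sumTo_add, evG_cons, sum_subs_replicate (cev K x φ v) m (evG K x φ D)
      (fun k' s r => F (cev K x φ cur * s) (k + k') (r ++ evG K x φ rest)), Finset.mul_sum]
    refine Finset.sum_congr rfl fun j hj => ?_
    have hj' : j ≤ m := by simpa [Nat.lt_succ_iff] using hj
    rw [htot] at ht hk
    -- the new rest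
    have hrest : ∃ R : List (List ℤ × ℕ), (cond (Nat.beq m j) (encG rest)
        ((enc v, Nat.sub m j) :: encG rest)) = encG R ∧ okG R ∧ tot R = m - j + tot rest ∧
        (∀ i, bnd i R = (m - j : ℕ) * |v.getD i 0| + bnd i rest) ∧
        evG K x φ R = List.replicate (m - j) (cev K x φ v) ++ evG K x φ rest := by
      by_cases hmj : m = j
      · refine ⟨rest, ?_, hr, ?_, fun i => ?_, ?_⟩
        · have : Nat.beq m j = true := by rw [Nat.beq_eq]; exact hmj
          rw [this]; rfl
        · omega
        · simp [hmj]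
        · simp [hmj]
      · refine ⟨(v, m - j) :: rest, ?_, ?_, ?_, fun i => ?_, rfl⟩
        · have : Nat.beq m j = false := by rwa [← Bool.not_eq_true, Nat.beq_eq]
          rw [this]; rfl
        · intro g hg'
          rcases List.mem_cons.1 hg' with rfl | hg'
          · refine ⟨hg.1, ?_, ?_⟩
            · show 1 ≤ m - j; omega
            · show m - j < 8; have := hg.2.2; simp at this; omega
          · exact hr g hg'
        · simp [tot]
        · simp [bnd]
    obtain ⟨R, hR, hRok, hRt, hRb, hRe⟩ := hrest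
    rw [hR, ← enc_cm]
    have hb' : ∀ i, bnd i D + |(addC cur (smulC j v)).getD i 0| + bnd i R ≤ 31 := by
      intro i
      have h1 := hb i
      rw [hbnd] at h1
      rw [getD_addC, getD_smulC, hRb]
      have h2 : |cur.getD i 0 + j * v.getD i 0| ≤ |cur.getD i 0| + j * |v.getD i 0| := by
        refine (abs_add_le _ _).trans ?_
        rw [abs_mul, abs_of_nonneg (show (0 : ℤ) ≤ j by positivity)]
      have h3 : ((m - j : ℕ) : ℤ) = m - j := by push_cast [hj']; ring
      rw [h3]
      nlinarith [abs_nonneg (v.getD i 0)]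
    have hlen : (addC cur (smulC j v)).length ≤ 5 := by
      rw [length_addC, length_smulC]; exact max_le hcl hg.1
    have := ih (addC cur (smulC j v)) (k + j) (c * chN m j) R hD' hRok hlen (by omega) (by omega) hb'
    simp only [Nat.add_eq, Nat.mul_eq] at this ⊢
    rw [this, chN_eq m hg.2.2 j (lt_of_le_of_lt hj' hg.2.2)]
    push_cast
    rw [mul_assoc]
    congr 2
    congr 1
    refine List.map_congr_left fun s _ => ?_
    rw [cev_comb hx, hRe]
    have e1 : cev K x φ cur * cev K x φ v ^ j * s.2.1 = cev K x φ cur * (cev K x φ v ^ j * s.2.1) :=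
      mul_assoc _ _ _
    have e2 : k + j + s.1 = k + (s.1 + j) := by omega
    rw [e1, e2]
    refine hF _ _ _ _ ?_
    rw [← List.append_assoc, List.append_assoc]
    rw [← List.append_assoc]
    exact (List.perm_append_comm.append_right _).symm.symm

/-- complex value of a leaf. -/
noncomputable def lfC (K : ℕ) (x : Fin 7 → Fin 7 → ℂ) (φ : Fin K → Fin 6) (l : List ℕ)
    (e mg s : ℕ) : ℂ := (-1) ^ s * mg * s6 ^ e * pvN K x φ l

end Vale.Agent.P355.H182
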