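import Vale.Agent.P355.H182.Run

/-! Soundness of the fast expansion. -/

namespace Vale.Agent.P355.H182

open Finset Vale.Agent.P355 Vale.Agent.P355.H138

variable {x : Fin 7 → Fin 7 → ℂ} {K : ℕ}

theorem fs_cev (φ : Fin K → Fin 6) (v : List ℤ) : fs (cev K x φ v) = csum K x φ v := rfl

theorem run_sem {mk : Bool} (hx : Good mk x) (hK : 4 ≤ K) (φ : Fin K → Fin 6) (n : ℕ)
    (G : List (List ℤ × ℕ)) (l : List ℕ) (e mg s : ℕ) (hG : okG G) (ht : tot G ≤ n)
    (h8 : n ≤ 8) (hb : ∀ i, bnd i G ≤ 31) :
    run' cmN chN facN (· + ·) (trN mk) insN (lfC K x φ) n (encG G) l e mg s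
      = (-1) ^ s * mg * s6 ^ e * pvN K x φ l * inj (evG K x φ G) ∅ := by
  induction n generalizing G l e mg s with
  | zero =>
    have : G = [] := by
      rcases G with _ | ⟨g, G⟩
      · rfl
      · have := (hG g (by simp)).2.1
        simp only [tot, List.map_cons, List.sum_cons] at ht
        omega
    subst this
    simp [run', lfC, evG, unG, inj_nil]
  | succ n ih =>
    rcases G with _ | ⟨⟨v, m⟩, D⟩
    · simp [run', encG, lfC, evG, unG, inj_nil]
    have hg := hG (v, m) (by simp)
    have hD' : okG D := fun g hg => hG g (List.mem_cons_of_mem _ hg)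
    have htot : tot ((v, m) :: D) = m + tot D := by simp [tot]
    have hbnd : ∀ i, bnd i ((v, m) :: D) = m * |v.getD i 0| + bnd i D := fun i => by simp [bnd]
    have e0 : encG ((v, m) :: D) = (enc v, m) :: encG D := rfl
    rw [htot] at ht
    -- the remaining groups
    obtain ⟨R, hR, hRok, hRt, hRb, hRe⟩ : ∃ R : List (List ℤ × ℕ),
        (cond (Nat.beq m 1) (encG D) ((enc v, Nat.sub m 1) :: encG D)) = encG R ∧ okG R ∧
        tot R = m - 1 + tot D ∧ (∀ i, bnd i R = (m - 1 : ℕ) * |v.getD i 0| + bnd i D) ∧
        evG K x φ R = List.replicate (m - 1) (cev K x φ v) ++ evG K x φ D := by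
      by_cases hm : m = 1
      · refine ⟨D, ?_, hD', ?_, fun i => ?_, ?_⟩
        · have : Nat.beq m 1 = true := by rw [Nat.beq_eq]; exact hm
          rw [this]; rfl
        · omega
        · simp [hm]
        · simp [hm]
      · refine ⟨(v, m - 1) :: D, ?_, ?_, ?_, fun i => ?_, rfl⟩
        · have : Nat.beq m 1 = false := by rwa [← Bool.not_eq_true, Nat.beq_eq]
          rw [this]; rfl
        · intro g hg'
          have h1 := hg.2.1
          have h2 := hg.2.2
          simp only at h1 h2
          rcases List.mem_cons.1 hg' with rfl | hg'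
          · refine ⟨hg.1, ?_, ?_⟩
            · show 1 ≤ m - 1; omega
            · show m - 1 < 8; omega
          · exact hD' g hg'
        · simp [tot]
        · simp [bnd]
    have h1m : 1 ≤ m := hg.2.1
    rw [e0]
    simp only [run']
    rw [hR]
    have hmb : ∀ i, bnd i R + |v.getD i 0| + bnd i [] ≤ 31 := by
      intro i
      have h1 := hb i
      rw [hbnd] at h1
      rw [hRb]
      have h3 : ((m - 1 : ℕ) : ℤ) = m - 1 := by push_cast [h1m]; ring
      rw [h3]
      simp only [bnd, List.map_nil, List.sum_nil, add_zero] at h1 ⊢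
      nlinarith [abs_nonneg (v.getD i 0)]
    have key := sel_sem hx.1 φ n (fun cur k c rest =>
        run' cmN chN facN (· + ·) (trN mk) insN (lfC K x φ) n rest
          (cond (Nat.beq (trN mk cur) 0) (insN cur l) l) (Nat.add e (trN mk cur))
          (Nat.mul mg (Nat.mul c (facN k))) (Nat.add s k))
      (fun g k r => (-1) ^ (s + k) * mg * (k.factorial : ℂ) * s6 ^ e * pvN K x φ l * fs g * inj r ∅)
      (fun g k L L' h => by beta_reduce; rw [inj_perm h])
      (by
        intro cur k c rest hr hcl htr hk hbr
        have hsm : Sml cur := ⟨hcl, fun i => by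
          have h1 := hbr i
          have h2 : 0 ≤ bnd i rest := by
            unfold bnd
            refine List.sum_nonneg fun a ha => ?_
            obtain ⟨g, _, rfl⟩ := List.mem_map.1 ha
            positivity
          linarith⟩
        have h4 : bnd 0 rest ≤ 31 := by
          have := hbr 0; linarith [abs_nonneg (cur.getD 0 0)]
        have hbr' : ∀ i, bnd i rest ≤ 31 := fun i => by
          have := hbr i; linarith [abs_nonneg (cur.getD i 0)]
        beta_reduce
        rw [ih rest _ _ _ _ hr htr (by omega) hbr', facN_eq k hk]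
        simp only [Nat.add_eq, Nat.mul_eq]
        rw [fs_cev]
        by_cases h0 : trN mk (enc cur) = 0
        · rw [h0]
          simp only [Nat.beq_refl, cond_true, pvN_ins, cvN_enc φ hsm, add_zero]
          push_cast; ring
        · have h6 : Nat.beq (trN mk (enc cur)) 0 = false := by rwa [← Bool.not_eq_true, Nat.beq_eq]
          rw [h6, trN_sound hx hK φ hsm h0]
          simp only [cond_false, pow_add]
          push_cast; ring)
      R v 0 1 [] hRok (by intro g hg; simp at hg) hg.1
      (by have : tot ([] : List (List ℤ × ℕ)) = 0 := rfl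
          omega)
      (by omega) hmb
    have e1 : encG ([] : List (List ℤ × ℕ)) = [] := rfl
    rw [e1] at key
    rw [key]
    have e2 : evG K x φ [] = [] := rfl
    have e3 : evG K x φ ((v, m) :: D) = cev K x φ v :: evG K x φ R := by
      rw [evG_cons, hRe]
      obtain ⟨m', rfl⟩ : ∃ m', m = m' + 1 := ⟨m - 1, by omega⟩
      rw [List.replicate_succ]; rfl
    rw [e3, block, e2]
    push_cast
    rw [one_mul, ← List.sum_map_mul_left]
    congr 1
    refine List.map_congr_left fun t _ => ?_
    simp only [zero_add, List.append_nil, pow_add]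
    ring

end Vale.Agent.P355.H182
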