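import Vale.Agent.P355.H138.Gval

/-! Relations between six unimodular numbers `z 0, …, z 5` with sum `s`: the elementary symmetric
functions satisfy `e_{6-k} = D conj e_k`. `w` stands for the conjugates. -/

namespace Vale.Agent.P355.H182

open Finset

/-- elementary symmetric functions of degree two, three, and the product. -/
def S2 (z : Fin 6 → ℂ) : ℂ :=
  z 0*z 1 + z 0*z 2 + z 0*z 3 + z 0*z 4 + z 0*z 5 + z 1*z 2 + z 1*z 3 + z 1*z 4 + z 1*z 5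
  + z 2*z 3 + z 2*z 4 + z 2*z 5 + z 3*z 4 + z 3*z 5 + z 4*z 5

def S3 (z : Fin 6 → ℂ) : ℂ :=
  z 0*z 1*z 2 + z 0*z 1*z 3 + z 0*z 1*z 4 + z 0*z 1*z 5 + z 0*z 2*z 3 + z 0*z 2*z 4 + z 0*z 2*z 5
  + z 0*z 3*z 4 + z 0*z 3*z 5 + z 0*z 4*z 5 + z 1*z 2*z 3 + z 1*z 2*z 4 + z 1*z 2*z 5
  + z 1*z 3*z 4 + z 1*z 3*z 5 + z 1*z 4*z 5 + z 2*z 3*z 4 + z 2*z 3*z 5 + z 2*z 4*z 5
  + z 3*z 4*z 5

def S4 (z : Fin 6 → ℂ) : ℂ :=
  z 0*z 1*z 2*z 3 + z 0*z 1*z 2*z 4 + z 0*z 1*z 2*z 5 + z 0*z 1*z 3*z 4 + z 0*z 1*z 3*z 5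
  + z 0*z 1*z 4*z 5 + z 0*z 2*z 3*z 4 + z 0*z 2*z 3*z 5 + z 0*z 2*z 4*z 5 + z 0*z 3*z 4*z 5
  + z 1*z 2*z 3*z 4 + z 1*z 2*z 3*z 5 + z 1*z 2*z 4*z 5 + z 1*z 3*z 4*z 5 + z 2*z 3*z 4*z 5

def S5 (z : Fin 6 → ℂ) : ℂ :=
  z 0*z 1*z 2*z 3*z 4 + z 0*z 1*z 2*z 3*z 5 + z 0*z 1*z 2*z 4*z 5 + z 0*z 1*z 3*z 4*z 5
  + z 0*z 2*z 3*z 4*z 5 + z 1*z 2*z 3*z 4*z 5

def S6 (z : Fin 6 → ℂ) : ℂ := z 0*z 1*z 2*z 3*z 4*z 5

variable (z w : Fin 6 → ℂ)

theorem newton2 : 2 * S2 z = (∑ b, z b) ^ 2 - ∑ b, z b ^ 2 := by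
  simp only [Fin.sum_univ_six, S2]; ring

theorem newton3 : 6 * S3 z = (∑ b, z b) ^ 3 - 3 * (∑ b, z b) * (∑ b, z b ^ 2)
    + 2 * ∑ b, z b ^ 3 := by
  simp only [Fin.sum_univ_six, S3]; ring

theorem newton4 : 24 * S4 z = (∑ b, z b) ^ 4 - 6 * (∑ b, z b) ^ 2 * (∑ b, z b ^ 2)
    + 3 * (∑ b, z b ^ 2) ^ 2 + 8 * (∑ b, z b) * (∑ b, z b ^ 3) - 6 * ∑ b, z b ^ 4 := by
  simp only [Fin.sum_univ_six, S4]; ring

/-- every `z b` is a root of the characteristic polynomial. -/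
theorem char0 (b : Fin 6) : z b ^ 6 - (∑ c, z c) * z b ^ 5 + S2 z * z b ^ 4 - S3 z * z b ^ 3
    + S4 z * z b ^ 2 - S5 z * z b + S6 z = 0 := by
  have h : (z b - z 0) * (z b - z 1) * (z b - z 2) * (z b - z 3) * (z b - z 4) * (z b - z 5) = 0 := by
    fin_cases b <;> simp
  rw [← h]
  simp only [Fin.sum_univ_six, S2, S3, S4, S5, S6]
  ring

variable {z w}

section
variable (h : ∀ b, z b * w b = 1)
include h

theorem ne_of (b : Fin 6) : z b ≠ 0 := by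
  intro h0; have := h b; rw [h0] at this; simp at this

theorem w_eq (b : Fin 6) : w b = (z b)⁻¹ := eq_inv_of_mul_eq_one_right (h b)

theorem S3_rec : S3 z = S6 z * S3 w := by
  have n := ne_of h
  have n0 := n 0; have n1 := n 1; have n2 := n 2; have n3 := n 3; have n4 := n 4; have n5 := n 5
  simp only [S3, S6, w_eq h]
  field_simp
  ring

theorem S4_rec : S4 z = S6 z * S2 w := by
  have n := ne_of h
  have n0 := n 0; have n1 := n 1; have n2 := n 2; have n3 := n 3; have n4 := n 4; have n5 := n 5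
  simp only [S4, S2, S6, w_eq h]
  field_simp
  ring

theorem S5_rec : S5 z = S6 z * ∑ b, w b := by
  have n := ne_of h
  have n0 := n 0; have n1 := n 1; have n2 := n 2; have n3 := n 3; have n4 := n 4; have n5 := n 5
  simp only [S5, S6, w_eq h, Fin.sum_univ_six]
  field_simp
  ring

theorem S6_mul : S6 z * S6 w = 1 := by
  have n := ne_of h
  have n0 := n 0; have n1 := n 1; have n2 := n 2; have n3 := n 3; have n4 := n 4; have n5 := n 5
  simp only [S6, w_eq h]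
  field_simp

/-- the characteristic relation divided by `z b ^ 3`. -/
theorem char1 (b : Fin 6) : z b ^ 3 - (∑ c, z c) * z b ^ 2 + S2 z * z b - S3 z
    + S6 z * (S2 w * w b - (∑ c, w c) * w b ^ 2 + w b ^ 3) = 0 := by
  have h0 := char0 z b
  rw [S4_rec h, S5_rec h] at h0
  have e : ∀ k : ℕ, z b ^ k * w b ^ k = 1 := fun k => by rw [← mul_pow, h b, one_pow]
  linear_combination (w b ^ 3) * h0 - (z b ^ 3 - (∑ c, z c) * z b ^ 2 + S2 z * z b - S3 z) * e 3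
    - (S6 z * S2 w * w b) * e 2 + (S6 z * (∑ c, w c) * w b ^ 2) * h b

/-- `A(b) = z³ - s z² + e₂ z`. -/
def AA (z : Fin 6 → ℂ) (b : Fin 6) : ℂ := z b ^ 3 - (∑ c, z c) * z b ^ 2 + S2 z * z b

theorem char2 (b : Fin 6) : AA z b + S6 z * AA w b = S3 z := by
  have := char1 h b
  unfold AA
  linear_combination this

/-- (F1): `conj e₃ A(b) + e₃ conj A(b) = e₃ conj e₃`. -/
theorem relF1 (b : Fin 6) : S3 w * AA z b + S3 z * AA w b = S3 z * S3 w := by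
  have h1 := char2 h b
  have h2 := S3_rec h
  linear_combination (S3 w) * h1 + (AA w b) * h2

/-- (F2): the relation for two values. -/
theorem relF2 (b c : Fin 6) : AA z b * AA w c - AA z c * AA w b = S3 z * (AA w c - AA w b) := by
  have h1 := char2 h b
  have h2 := char2 h c
  linear_combination (AA w c) * h1 - (AA w b) * h2

/-- (F0): `e₄ conj e₃ = e₃ conj e₂`. -/
theorem relF0 : S4 z * S3 w = S3 z * S2 w := by
  have h1 := S4_rec h
  have h2 := S3_rec h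
  linear_combination (S3 w) * h1 - (S2 w) * h2

end

end Vale.Agent.P355.H182
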