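import Vale.Agent.P355.H182.Dig
import Vale.Agent.P355.H182.N7z

/-! Soundness of the chunk check. -/

namespace Vale.Agent.P355.H182

open Finset Vale.Agent.P355 Vale.Agent.P355.H138

/-! ### Columns -/

theorem dgN_eq (c i : ℕ) : dgN c i = c / 64 ^ i % 64 := by
  unfold dgN
  have h1 : Nat.land (Nat.shiftRight c (Nat.mul 6 i)) 63 = (c >>> (6 * i)) &&& (2 ^ 6 - 1) := rfl
  rw [h1, Nat.and_two_pow_sub_one_eq_mod, Nat.shiftRight_eq_div_pow, pow_mul]
  norm_num

/-- decoding of a shifted column code. -/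
def decV (c : ℕ) : List ℤ :=
  [(dgN c 0 : ℤ) - 32, (dgN c 1 : ℤ) - 32, (dgN c 2 : ℤ) - 32, (dgN c 3 : ℤ) - 32,
    (dgN c 4 : ℤ) - 32]

theorem enc_decV {c : ℕ} (hc : c ≤ 1073741823) : enc (decV c) = toE c := by
  have h1 : ((enc (decV c) : ℕ) : ℤ) = ((toE c : ℕ) : ℤ) := by
    rw [enc_cast]
    have h2 : encZ (decV c) = (c : ℤ) - 545392672 := by
      simp only [decV, encZ, dgN_eq]
      have e : c / 64 ^ 0 % 64 + 64 * (c / 64 ^ 1 % 64 + 64 * (c / 64 ^ 2 % 64 +
          64 * (c / 64 ^ 3 % 64 + 64 * (c / 64 ^ 4 % 64)))) = c := by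
        norm_num
        omega
      have e' := congrArg (fun n : ℕ => (n : ℤ)) e
      push_cast at e'
      push_cast
      linarith
    rw [h2]
    have h3 : toE c = (c + 528349152) % 1073741824 := rfl
    rw [h3]
    push_cast
    omega
  exact_mod_cast h1

theorem length_decV (c : ℕ) : (decV c).length = 5 := rfl

theorem getD_decV (c i : ℕ) (hi : i < 5) : (decV c).getD i 0 = (dgN c i : ℤ) - 32 := by
  interval_cases i <;> rfl

theorem getD_decV' (c i : ℕ) (hi : 5 ≤ i) : (decV c).getD i 0 = 0 := by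
  rw [List.getD_eq_getElem?_getD, List.getElem?_eq_none (by rw [length_decV]; exact hi)]
  rfl

theorem smN_spec {c : ℕ} (h : smN c = true) : c ≤ 1073741823 ∧ Sml (decV c) := by
  simp only [smN, Bool.and_eq_true, Bool.not_eq_true', Nat.ble_eq] at h
  obtain ⟨⟨⟨⟨⟨h0, h1⟩, h2⟩, h3⟩, h4⟩, h5⟩ := h
  have key : ∀ i, Nat.beq (dgN c i) 0 = false → |(dgN c i : ℤ) - 32| ≤ 31 := by
    intro i hi
    have a : dgN c i ≠ 0 := by
      intro h; rw [h] at hi; simp at hi
    have b : dgN c i < 64 := by rw [dgN_eq]; exact Nat.mod_lt _ (by norm_num)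
    rw [abs_le]; constructor <;> omega
  refine ⟨h0, sml_of (by rw [length_decV]) ?_⟩
  intro a ha
  simp only [decV, List.mem_cons, List.not_mem_nil, or_false] at ha
  rcases ha with rfl | rfl | rfl | rfl | rfl
  · exact key 0 h1
  · exact key 1 h2
  · exact key 2 h3
  · exact key 3 h4
  · exact key 4 h5

/-! ### Groups -/

/-- groups of vectors. -/
def GV (G : List (ℕ × ℕ)) : List (List ℤ × ℕ) := G.map fun g => (decV g.1, g.2)

theorem grN_spec {G : List (ℕ × ℕ)} (h : grN G = true) :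
    ∀ g ∈ G, smN g.1 = true ∧ 1 ≤ g.2 ∧ g.2 ≤ 7 := by
  induction G with
  | nil => simp
  | cons g G ih =>
    obtain ⟨c, m⟩ := g
    simp only [grN, Bool.and_eq_true, Nat.ble_eq] at h
    intro g hg
    rcases List.mem_cons.1 hg with rfl | hg
    · exact ⟨h.1.1.1, h.1.1.2, h.1.2⟩
    · exact ih h.2 g hg

theorem encG_GV {G : List (ℕ × ℕ)} (h : grN G = true) :
    encG (GV G) = G.map fun g => (toE g.1, g.2) := by
  unfold encG GV
  rw [List.map_map]
  refine List.map_congr_left fun g hg => ?_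
  simp only [Function.comp, enc_decV (smN_spec (grN_spec h g hg).1).1]

theorem okG_GV {G : List (ℕ × ℕ)} (h : grN G = true) : okG (GV G) := by
  intro g hg
  obtain ⟨g', hg', rfl⟩ := List.mem_map.1 hg
  have := grN_spec h g' hg'
  refine ⟨by simp [length_decV], this.2.1, ?_⟩
  simp only
  omega

theorem tot_GV (G : List (ℕ × ℕ)) : tot (GV G) = totN G := by
  induction G with
  | nil => rfl
  | cons g G ih =>
    obtain ⟨c, m⟩ := g
    have : tot (GV ((c, m) :: G)) = m + tot (GV G) := by simp [tot, GV]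
    rw [this, ih]; rfl

theorem abN_eq (d : ℕ) : ((abN d : ℕ) : ℤ) = |(d : ℤ) - 32| := by
  unfold abN
  have h : Nat.add (Nat.sub d 32) (Nat.sub 32 d) = (d - 32) + (32 - d) := rfl
  rw [h]
  rcases le_total d 32 with h1 | h1
  · rw [abs_of_nonpos (by omega)]; omega
  · rw [abs_of_nonneg (by omega)]; omega

theorem bnd_GV (G : List (ℕ × ℕ)) (i : ℕ) (hi : i < 5) : bnd i (GV G) = (bndN i G : ℕ) := by
  induction G with
  | nil => rfl
  | cons g G ih =>
    obtain ⟨c, m⟩ := g
    have h1 : bnd i (GV ((c, m) :: G)) = m * |(decV c).getD i 0| + bnd i (GV G) := by simp [bnd, GV]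
    have h2 : bndN i ((c, m) :: G) = m * abN (dgN c i) + bndN i G := rfl
    rw [h1, h2, ih, getD_decV c i hi]
    push_cast
    rw [abN_eq]

theorem bnd_GV' (G : List (ℕ × ℕ)) (i : ℕ) (hi : 5 ≤ i) : bnd i (GV G) = 0 := by
  induction G with
  | nil => rfl
  | cons g G ih =>
    obtain ⟨c, m⟩ := g
    have h1 : bnd i (GV ((c, m) :: G)) = m * |(decV c).getD i 0| + bnd i (GV G) := by simp [bnd, GV]
    rw [h1, ih, getD_decV' c i hi]
    simp

theorem unG_pat (G : List (ℕ × ℕ)) (i : ℕ) (hi : i < 5) :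
    (unG (GV G)).map (fun c => c.getD i 0) = (patN i G).map fun d : ℕ => (d : ℤ) - 32 := by
  induction G with
  | nil => rfl
  | cons g G ih =>
    obtain ⟨c, m⟩ := g
    have h1 : unG (GV ((c, m) :: G)) = List.replicate m (decV c) ++ unG (GV G) := rfl
    have h2 : patN i ((c, m) :: G) = List.replicate m (dgN c i) ++ patN i G := rfl
    rw [h1, h2, List.map_append, List.map_append, ih, List.map_replicate, List.map_replicate,
      getD_decV c i hi]

theorem length_unG (G : List (List ℤ × ℕ)) : (unG G).length = tot G := by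
  induction G with
  | nil => rfl
  | cons g G ih =>
    have h1 : unG (g :: G) = List.replicate g.2 g.1 ++ unG G := rfl
    have h2 : tot (g :: G) = g.2 + tot G := by simp [tot]
    rw [h1, h2, List.length_append, List.length_replicate, ih]

theorem evG_eq {K : ℕ} {x : Fin 7 → Fin 7 → ℂ} (φ : Fin K → Fin 6) (G : List (List ℤ × ℕ)) :
    evG K x φ G = (unG G).map (cev K x φ) := by
  induction G with
  | nil => rfl
  | cons g G ih =>
    obtain ⟨v, m⟩ := g
    have h1 : unG ((v, m) :: G) = List.replicate m v ++ unG G := rfl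
    rw [evG_cons, ih, h1, List.map_append, List.map_replicate]

theorem eqN_spec {l l' : List ℕ} (h : eqN l l' = true) : l = l' := by
  induction l generalizing l' with
  | nil => cases l' with
    | nil => rfl
    | cons _ _ => simp [eqN] at h
  | cons a l ih => cases l' with
    | nil => simp [eqN] at h
    | cons b l' =>
      simp only [eqN, Bool.and_eq_true, Nat.beq_eq] at h
      rw [h.1, ih h.2]

theorem allN_spec {f : ℕ → Bool} {l : List ℕ} (h : allN f l = true) : ∀ a ∈ l, f a = true := by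
  induction l with
  | nil => simp
  | cons b l ih =>
    simp only [allN, Bool.and_eq_true] at h
    intro a ha
    rcases List.mem_cons.1 ha with rfl | ha
    · exact h.1
    · exact ih h.2 a ha

/-! ### One relation -/

variable {K : ℕ}

theorem pvN_toE {x : Fin 7 → Fin 7 → ℂ} (φ : Fin K → Fin 6) {M : List ℕ}
    (h : ∀ c ∈ M, smN c = true) :
    pvN K x φ (M.map toE) = ((M.map decV).map (csum K x φ)).prod := by
  unfold pvN
  rw [List.map_map, List.map_map]
  congr 1
  refine List.map_congr_left fun c hc => ?_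
  obtain ⟨h1, h2⟩ := smN_spec (h c hc)
  simp only [Function.comp, ← enc_decV h1]
  exact cvN_enc φ h2

theorem Ins.zero {mk : Bool} {y : Fin 7 → Fin 7 → ℂ} (hy : Good mk y) (hN : N7c y) (hK : 4 ≤ K)
    (i : Ins) (hok : i.ok K = true) :
    ∑ φ : Fin K → Fin 6, head y φ (cw K (decV i.h)) *
      run' cmN chN facN (· + ·) (trN mk) insN (lfC K y φ) 8 (i.G.map fun g => (toE g.1, g.2))
        (i.M.map toE) i.g i.lam i.s = 0 := by
  simp only [Ins.ok, Bool.and_eq_true, Nat.ble_eq] at hok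
  obtain ⟨⟨⟨⟨⟨⟨⟨⟨⟨hG, b0⟩, b1⟩, b2⟩, b3⟩, b4⟩, ht⟩, hh⟩, hM⟩, hc⟩ := hok
  have hM' := allN_spec hM
  have hb : ∀ j, bnd j (GV i.G) ≤ 31 := by
    intro j
    by_cases hj : j < 5
    · rw [bnd_GV _ _ hj]
      have : bndN j i.G ≤ 31 := by interval_cases j <;> assumption
      exact_mod_cast this
    · rw [bnd_GV' _ _ (by omega)]; norm_num
  have e1 : ∀ φ : Fin K → Fin 6, run' cmN chN facN (· + ·) (trN mk) insN (lfC K y φ) 8
      (i.G.map fun g => (toE g.1, g.2)) (i.M.map toE) i.g i.lam i.s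
      = (-1) ^ i.s * i.lam * s6 ^ i.g * (((i.M.map decV).map (csum K y φ)).prod *
        inj ((unG (GV i.G)).map (cev K y φ)) ∅) := by
    intro φ
    rw [← encG_GV hG, run_sem hy hK φ 8 (GV i.G) _ _ _ _ (okG_GV hG) (by rw [tot_GV]; exact ht)
      le_rfl hb, pvN_toE φ hM', evG_eq]
    ring
  have e2 : ∀ φ : Fin K → Fin 6, head y φ (cw K (decV i.h)) *
      run' cmN chN facN (· + ·) (trN mk) insN (lfC K y φ) 8
      (i.G.map fun g => (toE g.1, g.2)) (i.M.map toE) i.g i.lam i.s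
      = ((-1) ^ i.s * i.lam * s6 ^ i.g) * (head y φ (cw K (decV i.h)) *
        ((i.M.map decV).map (csum K y φ)).prod * inj ((unG (GV i.G)).map (cev K y φ)) ∅) := by
    intro φ; rw [e1]; ring
  rw [Finset.sum_congr rfl fun φ _ => e2 φ, ← Finset.mul_sum]
  refine mul_eq_zero_of_right _ ?_
  by_cases h0 : i.i0 = 0
  · rw [h0] at hc
    simp only [Nat.beq_refl, cond_true, Nat.ble_eq] at hc
    refine Finset.sum_eq_zero fun φ _ => ?_
    rw [inj_zero _ _ (by rw [List.length_map, length_unG, tot_GV]; simp; omega), mul_zero]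
  · have h1 : Nat.beq i.i0 0 = false := by rwa [← Bool.not_eq_true, Nat.beq_eq]
    rw [h1] at hc
    simp only [cond_false, Bool.and_eq_true, Nat.ble_eq, Nat.beq_eq] at hc
    obtain ⟨⟨⟨⟨c1, c2⟩, c3⟩, c4⟩, c5⟩ := hc
    refine n7_zero hy hN i.i0 _ _ _ ?_
    simp only [nOK, Bool.and_eq_true, decide_eq_true_eq, beq_iff_eq, List.all_eq_true]
    refine ⟨⟨⟨⟨by omega, c2⟩, ?_⟩, ?_⟩, ?_⟩
    · rw [getD_decV _ _ (by omega), c3]; norm_num
    · intro c hc
      obtain ⟨c', hc', rfl⟩ := List.mem_map.1 hc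
      have := allN_spec c4 c' hc'
      simp only [Nat.beq_eq] at this
      rw [getD_decV _ _ (by omega), this]; norm_num
    · rw [unG_pat _ _ (by omega), eqN_spec c5]
      norm_num

/-! ### Leaves -/

/-- a leaf: columns, power of `√6`, weight, sign. -/
abbrev Leaf : Type := List ℕ × ℕ × ℕ × ℕ

/-- all leaves of a relation. -/
def Ins.lvs (mk : Bool) (i : Ins) : List Leaf :=
  run' cmN chN facN (· ++ ·) (trN mk) insN (fun l e mg s => [(l, e, mg, s)]) 8
    (i.G.map fun g => (toE g.1, g.2)) (i.M.map toE) i.g i.lam i.s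

theorem Ins.val_eq (mk : Bool) (T : KT) (w top : ℕ) (i : Ins) :
    i.val mk T w top = ((i.lvs mk).map fun t => lfN T w top i.h t.1 t.2.1 t.2.2.1 t.2.2.2).sum := by
  unfold Ins.val Ins.lvs
  have := run_nat cmN chN facN (fun a b : List Leaf => a ++ b) Nat.add
    (fun L : List Leaf => (L.map fun t => lfN T w top i.h t.1 t.2.1 t.2.2.1 t.2.2.2).sum)
    (fun a b => by simp [List.map_append, List.sum_append]) (trN mk) insN
    (fun l e mg s => [(l, e, mg, s)]) 8 (i.G.map fun g => (toE g.1, g.2)) (i.M.map toE) i.g i.lam i.s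
  rw [this]
  simp

theorem Ins.lvs_sum {mk : Bool} {y : Fin 7 → Fin 7 → ℂ} (φ : Fin K → Fin 6) (i : Ins) :
    ((i.lvs mk).map fun t => lfC K y φ t.1 t.2.1 t.2.2.1 t.2.2.2).sum
    = run' cmN chN facN (· + ·) (trN mk) insN (lfC K y φ) 8 (i.G.map fun g => (toE g.1, g.2))
        (i.M.map toE) i.g i.lam i.s := by
  unfold Ins.lvs
  have := run_nat cmN chN facN (fun a b : List Leaf => a ++ b) (fun a b : ℂ => a + b)
    (fun L : List Leaf => (L.map fun t => lfC K y φ t.1 t.2.1 t.2.2.1 t.2.2.2).sum)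
    (fun a b => by simp [List.map_append, List.sum_append]) (trN mk) insN
    (fun l e mg s => [(l, e, mg, s)]) 8 (i.G.map fun g => (toE g.1, g.2)) (i.M.map toE) i.g i.lam i.s
  rw [this]
  simp

/-- sum over the rows of a graph given by codes. -/
noncomputable def gN (K : ℕ) (y : Fin 7 → Fin 7 → ℂ) (h : ℕ) (l : List ℕ) : ℂ :=
  ∑ φ : Fin K → Fin 6, head y φ (cw K (decV h)) * pvN K y φ l

/-- real part, symmetrised. -/
noncomputable def gR (K : ℕ) (x : Fin 7 → Fin 7 → ℂ) (h : ℕ) (l : List ℕ) : ℝ :=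
  (gN K x h l).re + (gN K (fun r c => x c r) h l).re

theorem Ins.sum_zero {mk : Bool} {y : Fin 7 → Fin 7 → ℂ} (hy : Good mk y) (hN : N7c y)
    (hK : 4 ≤ K) (i : Ins) (hok : i.ok K = true) :
    ((i.lvs mk).map fun t => ((-1) ^ t.2.2.2 * t.2.2.1 * s6 ^ t.2.1 : ℂ) * gN K y i.h t.1).sum = 0 := by
  rw [← Ins.zero hy hN hK i hok]
  have e : ∀ φ : Fin K → Fin 6, head y φ (cw K (decV i.h)) *
      run' cmN chN facN (· + ·) (trN mk) insN (lfC K y φ) 8 (i.G.map fun g => (toE g.1, g.2))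
        (i.M.map toE) i.g i.lam i.s
      = ((i.lvs mk).map fun t => head y φ (cw K (decV i.h)) *
          lfC K y φ t.1 t.2.1 t.2.2.1 t.2.2.2).sum := by
    intro φ; rw [← Ins.lvs_sum φ i, List.sum_map_mul_left]
  rw [Finset.sum_congr rfl fun φ _ => e φ]
  generalize i.lvs mk = L
  induction L with
  | nil => simp
  | cons t L ih =>
    simp only [List.map_cons, List.sum_cons, Finset.sum_add_distrib, ih]
    congr 1
    unfold gN lfC
    rw [Finset.mul_sum]
    exact Finset.sum_congr rfl fun φ _ => by ring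

theorem Ins.real_zero {mk : Bool} {x : Fin 7 → Fin 7 → ℂ} (hx : Good mk x) (hN : N7x x)
    (hK : 4 ≤ K) (i : Ins) (hok : i.ok K = true) :
    ((i.lvs mk).map fun t => ((-1) ^ t.2.2.2 * t.2.2.1 * r6 ^ t.2.1 : ℝ) * gR K x i.h t.1).sum = 0 := by
  have h1 := congrArg Complex.re (Ins.sum_zero hx hN.col hK i hok)
  have h2 := congrArg Complex.re (Ins.sum_zero hx.transpose hN.transpose.col hK i hok)
  rw [Complex.zero_re] at h1 h2
  rw [← add_zero (0 : ℝ), ← congrArg₂ (· + ·) h1 h2]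
  clear h1 h2
  generalize i.lvs mk = L
  have key : ∀ (t : Leaf) (z : ℂ), (((-1) ^ t.2.2.2 * t.2.2.1 * s6 ^ t.2.1 : ℂ) * z).re
      = ((-1) ^ t.2.2.2 * t.2.2.1 * r6 ^ t.2.1 : ℝ) * z.re := by
    intro t z
    have : ((-1) ^ t.2.2.2 * t.2.2.1 * s6 ^ t.2.1 : ℂ)
        = (((-1) ^ t.2.2.2 * t.2.2.1 * r6 ^ t.2.1 : ℝ) : ℂ) := by
      rw [s6_r6]; push_cast; ring
    rw [this, Complex.re_ofReal_mul]
  induction L with
  | nil => simp
  | cons t L ih =>
    simp only [List.map_cons, List.sum_cons, Complex.add_re, ih, key]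
    unfold gR
    ring

end Vale.Agent.P355.H182
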