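import Vale.Agent.P355.H182.Glb
import Vale.Agent.P355.H182.ChkE
import Vale.Agent.P355.H138.Gck

/-! Check of the global table of graphs. -/

namespace Vale.Agent.P355.H182

open Finset Vale.Agent.P355 Vale.Agent.P355.H138
open Vale.Agent.P355.H129 (force force_eq NRep RelPack)

noncomputable section

/-- columns of a packed list. -/
def dcd (n : ℕ) : ℕ → List ℕ :=
  Nat.rec (motive := fun _ => ℕ → List ℕ) (fun _ => [])
    (fun _ ih p => cd (Nat.beq p 0) []
      (force (Nat.mod (Nat.add (Nat.sub (Nat.mod p 2147483648) 1) 545392672) 1073741824) fun c =>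
        force (Nat.div p 2147483648) fun p' => c :: ih p')) n

/-- check of a node. -/
def nck (kc : Cst) (E2 K : ℕ) (m : Bool) (tr : Tr) (key q d : ℕ) : Bool :=
  force (Nat.mod key 2) fun pr => force (Nat.mod (Nat.div key 2) 1073741824) fun h =>
  force (Nat.div key 2147483648) fun p =>
  and (Nat.beq (keyN pr h ((dcd 8 p).map toE)) key)
    (and (allN smN (dcd 8 p)) (and (Nat.ble (lenR (dcd 8 p)) K) (and (Nat.ble K 15)
      (and (Nat.ble (gE d) (lenR (dcd 8 p)))
        (and (Nat.beq q (Nat.add (Nat.mul 16 (Nat.succ (gI d))) (Nat.sub (lenR (dcd 8 p)) (gE d))))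
          (gck kc E2 K m tr pr (h :: dcd 8 p) d))))))

theorem nck_sound {m : Bool} {K : ℕ} {x : Fin 7 → Fin 7 → ℂ} (hx : H138.Good m x)
    {kc : Cst} (hk : kc.Ok K) {E2 : ℕ} (hE2 : CstE2 K E2) {tr : Tr} {key q d : ℕ}
    (h : nck kc E2 K m tr key q d = true) : NOK K x (vl K x tr) key q := by
  unfold nck at h
  simp only [force_eq, Bool.and_eq_true, Nat.beq_eq, Nat.ble_eq, lenR_eq, lenN_eq] at h
  set pr := Nat.mod key 2 with hpr
  set hh := Nat.mod (Nat.div key 2) 1073741824 with hhh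
  set cols := dcd 8 (Nat.div key 2147483648) with hcols
  obtain ⟨h1, h2, h3, hK, h4, h5, h6⟩ := h
  have hpr2 : pr < 2 := Nat.mod_lt _ (by norm_num)
  have hhh2 : hh < 1073741824 := Nat.mod_lt _ (by norm_num)
  unfold NOK
  rw [← h1, Vk_eq K x _ hpr2 hhh2, ← uv_nv]
  have hok : (Ent.mk 0 0 pr hh cols).ok K = true := by
    simp only [Ent.ok, Bool.and_eq_true, Nat.ble_eq, lenN_eq]
    exact ⟨⟨⟨by omega, by omega⟩, h2⟩, h3⟩
  have e1 := Ent.nv_eq (x := x) (Ent.mk 0 0 pr hh cols) hok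
  have e2 : (Ent.mk 0 0 pr hh cols).nv K x = nv K x pr hh (cols.map toE) := rfl
  rw [e2] at e1
  have e3 : (Ent.mk 0 0 pr hh cols).mat K = mat K (decV hh :: cols.map decV) := rfl
  simp only [e3] at e1
  rw [e1, mat_fE]
  have e4 := gck_sound hx hk hE2 h6
  have e5 : Nat.beq pr 1 = decide (pr = 1) := by
    by_cases h : pr = 1
    · rw [h]; rfl
    · have : Nat.beq pr 1 = false := by rwa [← Bool.not_eq_true, Nat.beq_eq]
      rw [this]; simp [h]
  rw [e5] at e4
  have hq : q = 16 * (gI d + 1) + (cols.length - gE d) := h5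
  have hq1 : q % 16 = cols.length - gE d := by omega
  have hq2 : q / 16 - 1 = gI d := by omega
  rw [hq1, hq2, ← e4, List.length_map]
  have e6 : (6 : ℝ) ^ cols.length = 6 ^ (cols.length - gE d) * 6 ^ gE d := by
    rw [← pow_add]; congr 1; omega
  rw [e6]; ring

/-- check of a tree. -/
def tck (f : ℕ → ℕ → ℕ → Bool) (T : GT) : (List ℕ → Bool) → List ℕ → Bool :=
  GT.rec (motive := fun _ => (List ℕ → Bool) → List ℕ → Bool) (fun cont ds => cont ds)
    (fun _ key q _ tl tr' cont ds => tl (fun ds1 => List.rec (motive := fun _ => Bool) false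
      (fun d ds2 _ => and (f key q d) (tr' cont ds2)) ds1) ds) T

theorem tck_spec {K : ℕ} {x : Fin 7 → Fin 7 → ℂ} {val : ℕ → ℝ} {f : ℕ → ℕ → ℕ → Bool}
    (hf : ∀ key q d, f key q d = true → NOK K x val key q) (T : GT) (cont : List ℕ → Bool)
    (ds : List ℕ) (h : tck f T cont ds = true) :
    T.Ok K x val ∧ ∃ ds', cont ds' = true := by
  induction T generalizing cont ds with
  | nil => exact ⟨trivial, ds, h⟩
  | node l key q r ihl ihr =>
    have e : tck f (.node l key q r) cont ds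
        = tck f l (fun ds1 => List.rec (motive := fun _ => Bool) false
          (fun d ds2 _ => and (f key q d) (tck f r cont ds2)) ds1) ds := rfl
    rw [e] at h
    obtain ⟨h1, ds1, h2⟩ := ihl _ _ h
    cases ds1 with
    | nil => simp at h2
    | cons d ds2 =>
      simp only [Bool.and_eq_true] at h2
      obtain ⟨h3, h4⟩ := h2
      obtain ⟨h5, h6⟩ := ihr _ _ h4
      exact ⟨⟨h1, hf _ _ _ h3, h5⟩, h6⟩

end

theorem tab_sound {m : Bool} {K : ℕ} {kc : Cst} (hk : kc.Ok K) {E2 : ℕ} (hE2 : CstE2 K E2)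
    {tr : Tr} {T : GT} {ds : List ℕ} (h : tck (nck kc E2 K m tr) T (fun _ => true) ds = true)
    {x : Fin 7 → Fin 7 → ℂ} (hx : H138.Good m x) : T.Ok K x (vl K x tr) :=
  (tck_spec (fun _ _ _ h => nck_sound hx hk hE2 h) T _ ds h).1

/-! ### Packed sides of a chunk -/

open Vale.Agent.P355.H129 (RelPack)

/-- left side of a chunk. -/
noncomputable def cP (W w N : ℕ) (D : DT) : ℕ := sc W (fun p => dgw w N (Nat.mul 2 p)) D

/-- right side of a chunk. -/
noncomputable def cQ (W w N : ℕ) (D : DT) : ℕ := sc W (fun p => dgw w N (Nat.succ (Nat.mul 2 p))) D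

theorem chunkP {mk : Bool} {K : ℕ} {x : Fin 7 → Fin 7 → ℂ} (hx : H138.Good mk x) (hN : N7x x)
    {w W n : ℕ} {T : GT} {D : DT} {is : List Ins} {N : ℕ} {val : ℕ → ℝ}
    (hT : TOK K x val T) (hc : chkG K w n D is N = true)
    (hs : Nat.beq (sumG mk T D w (Nat.mul w (Nat.mul 2 (Nat.succ n))) is) N = true) :
    RelPack W val (cP W w N D) (cQ W w N D) (2 ^ w) := chunkG hx hN hT hc hs

theorem RelPack.lit {W : ℕ} {val : ℕ → ℝ} {P Q M P' Q' M' : ℕ} (h : RelPack W val P Q M)
    (hP : Nat.beq P P' = true) (hQ : Nat.beq Q Q' = true) (hM : Nat.ble M M' = true) :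
    RelPack W val P' Q' M' := by
  have h1 := Nat.eq_of_beq_eq_true hP
  have h2 := Nat.eq_of_beq_eq_true hQ
  subst h1 h2
  exact h.mono (Nat.le_of_ble_eq_true hM)

end Vale.Agent.P355.H182
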